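import Claimed.Agent.R282.S2AB.AN1.Rot

/-!
# Row 282, package AN1: (K0) `RepOcc ⇒ Moment` (Kempf-Ness, infinitesimal form)

`z(a, b, c) = ⟨c, T a b⟩` does not vanish identically on the (compact) sets of rotated highest weight vectors (`an1_cyc_le_span`).  At a maximum
of `|z|` the first order conditions along `exp (t ρ(X))`, `X` real skew, together with `ρ(H) a = ρ(X) a + m(H) a` (`an1_rot_decomp`)
and the equivariance of `T` give `Re tr (H (M₁ + M₂ - M₃)) = 0` for all Hermitian `H ∈ g`; `H = M₁ + M₂ - M₃`.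

Leaves: L-AN1-K1 (`an1_span_nonvanish`, `an1_exists_max`), L-AN1-K2 (`an1_first_order`, `an1_crit`).  The rest is proved glue.
-/

set_option autoImplicit false

namespace Claimed.Agent.R282

open Matrix NormedSpace

variable {n : ℕ} {ι ι₁ ι₂ ι₃ : Type} [Fintype ι] [DecidableEq ι] [Fintype ι₁] [DecidableEq ι₁]
  [Fintype ι₂] [DecidableEq ι₂] [Fintype ι₃] [DecidableEq ι₃]

/-! ## L-AN1-K1 -/

/-- by contradiction, three span inductions -/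
theorem an1_span_nonvanish (T : (ι₁ → ℂ) →ₗ[ℂ] (ι₂ → ℂ) →ₗ[ℂ] (ι₃ → ℂ)) (S₁ : Set (ι₁ → ℂ))
    (S₂ : Set (ι₂ → ℂ)) (S₃ : Set (ι₃ → ℂ)) (a : ι₁ → ℂ) (ha : a ∈ Submodule.span ℂ S₁) (b : ι₂ → ℂ)
    (hb : b ∈ Submodule.span ℂ S₂) (c : ι₃ → ℂ) (hc : c ∈ Submodule.span ℂ S₃)
    (hne : star c ⬝ᵥ T a b ≠ 0) : ∃ a' ∈ S₁, ∃ b' ∈ S₂, ∃ c' ∈ S₃, star c' ⬝ᵥ T a' b' ≠ 0 := by
  by_contra hcon
  push Not at hcon
  -- span induction in `c`
  have h3 : ∀ a' ∈ S₁, ∀ b' ∈ S₂, ∀ c' ∈ Submodule.span ℂ S₃, star c' ⬝ᵥ T a' b' = 0 := by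
    intro a' ha' b' hb' c' hc'
    induction hc' using Submodule.span_induction with
    | mem x hx => exact hcon a' ha' b' hb' x hx
    | zero => simp
    | add x y _ _ hx hy => rw [star_add, add_dotProduct, hx, hy, add_zero]
    | smul r x _ hx => rw [star_smul, smul_dotProduct, hx, smul_zero]
  have h2 : ∀ a' ∈ S₁, ∀ b' ∈ Submodule.span ℂ S₂, star c ⬝ᵥ T a' b' = 0 := by
    intro a' ha' b' hb'
    induction hb' using Submodule.span_induction with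
    | mem x hx => exact h3 a' ha' x hx c hc
    | zero => simp
    | add x y _ _ hx hy => rw [map_add, dotProduct_add, hx, hy, add_zero]
    | smul r x _ hx => rw [map_smul, dotProduct_smul, hx, smul_zero]
  have h1 : ∀ a' ∈ Submodule.span ℂ S₁, star c ⬝ᵥ T a' b = 0 := by
    intro a' ha'
    induction ha' using Submodule.span_induction with
    | mem x hx => exact h2 x hx b hb
    | zero => simp
    | add x y _ _ hx hy => rw [map_add, LinearMap.add_apply, dotProduct_add, hx, hy, add_zero]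
    | smul r x _ hx => rw [map_smul, LinearMap.smul_apply, dotProduct_smul, hx, smul_zero]
  exact hne (h1 a ha)

/-- `IsCompact.exists_isMaxOn` on `K₁ ×ˢ K₂ ×ˢ K₃`; continuity of `T`: `LinearMap.toContinuousBilinearMap` -/
theorem an1_exists_max (T : (ι₁ → ℂ) →ₗ[ℂ] (ι₂ → ℂ) →ₗ[ℂ] (ι₃ → ℂ)) (K₁ : Set (ι₁ → ℂ))
    (K₂ : Set (ι₂ → ℂ)) (K₃ : Set (ι₃ → ℂ)) (h₁ : IsCompact K₁) (h₂ : IsCompact K₂) (h₃ : IsCompact K₃)
    (n₁ : K₁.Nonempty) (n₂ : K₂.Nonempty) (n₃ : K₃.Nonempty) :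
    ∃ a ∈ K₁, ∃ b ∈ K₂, ∃ c ∈ K₃, ∀ a' ∈ K₁, ∀ b' ∈ K₂, ∀ c' ∈ K₃,
      ‖star c' ⬝ᵥ T a' b'‖ ≤ ‖star c ⬝ᵥ T a b‖ := by
  have hT : Continuous fun p : (ι₁ → ℂ) × (ι₂ → ℂ) => T p.1 p.2 := by
    have := (LinearMap.toContinuousBilinearMap T).continuous₂
    exact this
  have hcont : Continuous fun p : (ι₁ → ℂ) × (ι₂ → ℂ) × (ι₃ → ℂ) => ‖star p.2.2 ⬝ᵥ T p.1 p.2.1‖ := by
    refine Continuous.norm ?_
    refine Continuous.dotProduct ?_ ?_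
    · exact continuous_star.comp (continuous_snd.comp continuous_snd)
    · exact hT.comp (continuous_fst.prodMk (continuous_fst.comp continuous_snd))
  obtain ⟨p, hp, hmax⟩ := (h₁.prod (h₂.prod h₃)).exists_isMaxOn (n₁.prod (n₂.prod n₃)) hcont.continuousOn
  refine ⟨p.1, hp.1, p.2.1, hp.2.1, p.2.2, hp.2.2, fun a' ha' b' hb' c' hc' => ?_⟩
  exact hmax (a := (a', b', c')) ⟨ha', hb', hc'⟩

/-! ## L-AN1-K2 -/

/-- `t ↦ normSq (φ t)` has a maximum at `0`; its derivative is `2 Re (conj (φ 0) w)` (`IsLocalMax.hasDerivAt_eq_zero`) -/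
theorem an1_first_order (φ : ℝ → ℂ) (w : ℂ) (h : HasDerivAt φ w 0) (hmax : ∀ t, ‖φ t‖ ≤ ‖φ 0‖) :
    (starRingEnd ℂ (φ 0) * w).re = 0 := by
  have hre : HasDerivAt (fun t => (φ t).re) w.re 0 := by
    exact Complex.reCLM.hasFDerivAt.comp_hasDerivAt (0 : ℝ) h
  have him : HasDerivAt (fun t => (φ t).im) w.im 0 := by
    exact Complex.imCLM.hasFDerivAt.comp_hasDerivAt (0 : ℝ) h
  have hN : HasDerivAt (fun t => (φ t).re * (φ t).re + (φ t).im * (φ t).im)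
      (w.re * (φ 0).re + (φ 0).re * w.re + (w.im * (φ 0).im + (φ 0).im * w.im)) 0 :=
    (hre.mul hre).add (him.mul him)
  have hloc : IsLocalMax (fun t => (φ t).re * (φ t).re + (φ t).im * (φ t).im) 0 := by
    refine Filter.Eventually.of_forall fun t => ?_
    have h1 := hmax t
    have h2 : ‖φ t‖ ^ 2 ≤ ‖φ 0‖ ^ 2 := pow_le_pow_left₀ (norm_nonneg _) h1 2
    rw [← Complex.normSq_eq_norm_sq, ← Complex.normSq_eq_norm_sq, Complex.normSq_apply,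
      Complex.normSq_apply] at h2
    exact h2
  have h0 := hloc.hasDerivAt_eq_zero hN
  simp only [Complex.mul_re, Complex.conj_re, Complex.conj_im]
  linarith

/-- `an1_first_order` for `φ t = L (exp (t A) a)` (`an1_hasDerivAt_exp_mulVec`, `L` is continuous linear) -/
theorem an1_crit (L : (ι → ℂ) →ₗ[ℂ] ℂ) (A : Matrix ι ι ℂ) (a : ι → ℂ)
    (hmax : ∀ t : ℝ, ‖L ((exp (t • A)).mulVec a)‖ ≤ ‖L a‖) :
    (starRingEnd ℂ (L a) * L (A.mulVec a)).re = 0 := by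
  have hd : HasDerivAt (fun t : ℝ => L ((exp (t • A)).mulVec a)) (L (A.mulVec a)) 0 := by
    have h1 := ((LinearMap.toContinuousLinearMap L).restrictScalars ℝ).hasFDerivAt.comp_hasDerivAt (0 : ℝ)
      (an1_hasDerivAt_exp_mulVec A a)
    exact h1
  have e0 : L ((exp ((0 : ℝ) • A)).mulVec a) = L a := by simp
  have := an1_first_order _ _ hd (fun t => by rw [e0]; exact hmax t)
  rwa [e0] at this

/-! ## glue -/

/-- `c ↦ ⟨w, c⟩` -/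
def an1_dotL (w : ι → ℂ) : (ι → ℂ) →ₗ[ℂ] ℂ where
  toFun c := star w ⬝ᵥ c
  map_add' := by intro x y; rw [dotProduct_add]
  map_smul' := by intro r x; rw [dotProduct_smul]; rfl

theorem an1_dot_conj (c w : ι → ℂ) : star c ⬝ᵥ w = starRingEnd ℂ (star w ⬝ᵥ c) := by
  rw [starRingEnd_apply, ← star_dotProduct]

/-- invariance of the set of rotated highest weight vectors, in the form used below -/
theorem an1_rot_curve (R : StarRep Ty.D n ι) (lam : Vec n) (g : Matrix (Ix n) (Ix n) ℝ) (a : ι → ℂ)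
    (h : RotHW R lam g a) (X : Matrix (Ix n) (Ix n) ℝ) (hX : Xᵀ = -X) (t : ℝ) :
    ∃ g', RotHW R lam g' ((exp (t • R.ρ (cM X))).mulVec a) := by
  have hX' : (t • X)ᵀ = -(t • X) := by rw [transpose_smul, hX, smul_neg]
  have := an1_rot_exp R lam g a h (t • X) hX'
  rw [an1_rho_real_smul] at this
  exact ⟨_, this⟩

theorem an1_crit_scalar (z p₁ p₂ r m₁ m₂ m₃ : ℂ)
    (hE : starRingEnd ℂ r + starRingEnd ℂ m₃ * z = p₁ + m₁ * z + (p₂ + m₂ * z))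
    (c1 : (starRingEnd ℂ z * p₁).re = 0) (c2 : (starRingEnd ℂ z * p₂).re = 0)
    (c3 : (z * r).re = 0) (hz : z ≠ 0) : (m₁ + m₂ - m₃).re = 0 := by
  have hre := congrArg Complex.re hE
  have him := congrArg Complex.im hE
  simp only [Complex.add_re, Complex.add_im, Complex.mul_re, Complex.mul_im, Complex.conj_re,
    Complex.conj_im] at hre him c1 c2 c3
  have hn : z.re * z.re + z.im * z.im ≠ 0 := by
    intro h
    apply hz
    have h1 : z.re = 0 := by nlinarith [mul_self_nonneg z.re, mul_self_nonneg z.im]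
    have h2 : z.im = 0 := by nlinarith [mul_self_nonneg z.re, mul_self_nonneg z.im]
    exact Complex.ext h1 h2
  have : (z.re * z.re + z.im * z.im) * (m₁ + m₂ - m₃).re = 0 := by
    simp only [Complex.add_re, Complex.sub_re]
    linear_combination (-z.re) * hre + (-z.im) * him + c3 - c1 - c2
  exact (mul_eq_zero.mp this).resolve_left hn

theorem an1_crit_moment (lam mu xi : Vec n) (R₁ : StarRep Ty.D n ι₁) (R₂ : StarRep Ty.D n ι₂)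
    (R₃ : StarRep Ty.D n ι₃) (T : (ι₁ → ℂ) →ₗ[ℂ] (ι₂ → ℂ) →ₗ[ℂ] (ι₃ → ℂ))
    (hT : ∀ X, Ty.D.InG X → ∀ a b, (R₃.ρ X).mulVec (T a b)
        = T ((R₁.ρ X).mulVec a) b + T a ((R₂.ρ X).mulVec b))
    (g₁ g₂ g₃ : Matrix (Ix n) (Ix n) ℝ) (a : ι₁ → ℂ) (b : ι₂ → ℂ) (c : ι₃ → ℂ)
    (ha : RotHW R₁ lam g₁ a) (hb : RotHW R₂ mu g₂ b) (hc : RotHW R₃ xi g₃ c)
    (hz : star c ⬝ᵥ T a b ≠ 0)
    (hmax : ∀ a' ∈ {a | ∃ g, RotHW R₁ lam g a}, ∀ b' ∈ {b | ∃ g, RotHW R₂ mu g b},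
      ∀ c' ∈ {c | ∃ g, RotHW R₃ xi g c}, ‖star c' ⬝ᵥ T a' b'‖ ≤ ‖star c ⬝ᵥ T a b‖)
    (H : Matrix (Ix n) (Ix n) ℂ) (hH : Ty.D.InG H) (hHs : Hᴴ = H) :
    (trace (H * (AdC g₁ (Hc lam) + AdC g₂ (Hc mu) - AdC g₃ (Hc xi)))).re = 0 := by
  obtain ⟨X₁, hX₁, e₁⟩ := an1_rot_decomp R₁ lam g₁ a ha H hH
  obtain ⟨X₂, hX₂, e₂⟩ := an1_rot_decomp R₂ mu g₂ b hb H hH
  obtain ⟨X₃, hX₃, e₃⟩ := an1_rot_decomp R₃ xi g₃ c hc H hH
  have c1 := an1_crit ((an1_dotL c) ∘ₗ (T.flip b)) (R₁.ρ (cM X₁)) a (fun t =>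
    hmax _ (an1_rot_curve R₁ lam g₁ a ha X₁ hX₁ t) b ⟨g₂, hb⟩ c ⟨g₃, hc⟩)
  have c2 := an1_crit ((an1_dotL c) ∘ₗ (T a)) (R₂.ρ (cM X₂)) b (fun t =>
    hmax a ⟨g₁, ha⟩ _ (an1_rot_curve R₂ mu g₂ b hb X₂ hX₂ t) c ⟨g₃, hc⟩)
  have c3 := an1_crit (an1_dotL (T a b)) (R₃.ρ (cM X₃)) c (fun t => by
    have := hmax a ⟨g₁, ha⟩ b ⟨g₂, hb⟩ _ (an1_rot_curve R₃ xi g₃ c hc X₃ hX₃ t)
    rw [an1_dot_conj, an1_dot_conj c, RCLike.norm_conj, RCLike.norm_conj] at this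
    exact this)
  have hE : star c ⬝ᵥ (R₃.ρ H).mulVec (T a b) = star c ⬝ᵥ (T ((R₁.ρ H).mulVec a) b
      + T a ((R₂.ρ H).mulVec b)) := by rw [hT H hH]
  rw [an1_adj, ← R₃.star H hH, hHs, e₁, e₂, e₃, map_add, map_add, map_smul, map_smul,
    LinearMap.add_apply, LinearMap.smul_apply, star_add, star_smul, add_dotProduct, smul_dotProduct,
    dotProduct_add, dotProduct_add, dotProduct_add, dotProduct_smul, dotProduct_smul,
    an1_dot_conj ((R₃.ρ (cM X₃)).mulVec c)] at hE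
  have c3' : ((star c ⬝ᵥ T a b) * (star (T a b) ⬝ᵥ (R₃.ρ (cM X₃)).mulVec c)).re = 0 := by
    rw [an1_dot_conj c]
    exact c3
  have := an1_crit_scalar _ _ _ _ _ _ _ hE c1 c2 c3' hz
  have e : trace (H * (AdC g₁ (Hc lam) + AdC g₂ (Hc mu) - AdC g₃ (Hc xi)))
      = 2 * ((1 / 2 : ℂ) * trace (H * AdC g₁ (Hc lam)) + (1 / 2 : ℂ) * trace (H * AdC g₂ (Hc mu))
        - (1 / 2 : ℂ) * trace (H * AdC g₃ (Hc xi))) := by
    rw [mul_sub, mul_add, trace_sub, trace_add]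
    ring
  rw [e, Complex.mul_re, this]
  simp

theorem an1_repOcc_moment (lam mu xi : Vec n) (h : RepOcc Ty.D lam mu xi) :
    Ty.D.Moment lam mu xi := by
  obtain ⟨m₁, m₂, m₃, R₁, R₂, R₃, T, v₁, v₂, v₃, hT, h₁, h₂, h₃, a, ha, b, hb, c, hc, hne⟩ := h
  obtain ⟨a₀, ha₀, b₀, hb₀, c₀, hc₀, hne₀⟩ := an1_span_nonvanish T _ _ _ a (an1_cyc_le_span R₁ v₁ lam h₁ ha)
    b (an1_cyc_le_span R₂ v₂ mu h₂ hb) c (an1_cyc_le_span R₃ v₃ xi h₃ hc) hne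
  obtain ⟨a₁, ⟨g₁, hg₁⟩, b₁, ⟨g₂, hg₂⟩, c₁, ⟨g₃, hg₃⟩, hmax⟩ := an1_exists_max T _ _ _
    (an1_rot_compact_snd R₁ lam) (an1_rot_compact_snd R₂ mu) (an1_rot_compact_snd R₃ xi)
    ⟨a₀, ha₀⟩ ⟨b₀, hb₀⟩ ⟨c₀, hc₀⟩
  have hz : star c₁ ⬝ᵥ T a₁ b₁ ≠ 0 := by
    intro e
    have := hmax a₀ ha₀ b₀ hb₀ c₀ hc₀
    rw [e, norm_zero] at this
    exact hne₀ (norm_le_zero_iff.mp this)
  set D := AdC g₁ (Hc lam) + AdC g₂ (Hc mu) - AdC g₃ (Hc xi) with hD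
  have hDG : Ty.D.InG D := by
    rw [hD, sub_eq_add_neg, ← neg_one_smul ℂ]
    exact an1_inG_add (an1_inG_add (an1_inG_AdC _ (an1_inG_Hc _)) (an1_inG_AdC _ (an1_inG_Hc _)))
      (an1_inG_smul _ (an1_inG_AdC _ (an1_inG_Hc _)))
  have hDs : Dᴴ = D := by
    rw [hD, conjTranspose_sub, conjTranspose_add, an1_AdC_conjTranspose, an1_AdC_conjTranspose,
      an1_AdC_conjTranspose, an1_Hc_conjTranspose, an1_Hc_conjTranspose, an1_Hc_conjTranspose]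
  have h0 := an1_crit_moment lam mu xi R₁ R₂ R₃ T hT g₁ g₂ g₃ a₁ b₁ c₁ hg₁ hg₂ hg₃ hz hmax D hDG hDs
  have hD0 : D = 0 := by
    apply an1_eq_zero_of_trace
    rw [hDs]
    exact h0
  have e : D = Complex.I • cM (g₁ * Jmat lam * g₁ᵀ + g₂ * Jmat mu * g₂ᵀ - g₃ * Jmat xi * g₃ᵀ) := by
    rw [hD, an1_Hc_eq, an1_Hc_eq, an1_Hc_eq, an1_AdC_smul, an1_AdC_smul, an1_AdC_smul, an1_AdC_cM,
      an1_AdC_cM, an1_AdC_cM, sub_eq_add_neg (_ + _) (g₃ * Jmat xi * g₃ᵀ), an1_cM_add, an1_cM_add,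
      an1_cM_neg, smul_add, smul_add, smul_neg, ← sub_eq_add_neg]
  rw [e] at hD0
  have h1 : cM (g₁ * Jmat lam * g₁ᵀ + g₂ * Jmat mu * g₂ᵀ - g₃ * Jmat xi * g₃ᵀ) = cM 0 := by
    rcases smul_eq_zero.mp hD0 with h | h
    · exact absurd h Complex.I_ne_zero
    · rw [h]; ext; simp [cM]
  have h2 := an1_cM_injective h1
  exact ⟨⟨g₁, hg₁.so⟩, ⟨g₂, hg₂.so⟩, ⟨g₃, hg₃.so⟩, sub_eq_zero.mp h2⟩

end Claimed.Agent.R282
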