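import Claimed.Agent.R282.S2AB.AN1.Cas

/-!
# Row 282, package AN1: (K4) moment ⇒ asymptotic occurrence

`y = a ⊗ b`, `a`, `b` rotated highest weight vectors with moments `M₁ + M₂ = H(ξ)`.  `D = casimir - 2 ρ(H(ξ))`:
`⟨y, D y⟩ = 2 ⟨l + m, ρ⟩ - |ξ|²`, while on a weight vector of weight `χ - ∑ β` in the cyclic module of a primitive vector of weight `χ`
the eigenvalue of `D` is `|χ|² + 2 ⟨χ, ρ⟩ - 2 ⟨χ - ∑ β, ξ⟩ ≥ |χ - ξ|² - |ξ|²`.  Rayleigh: some primitive weight `χ` has `|χ - ξ|² ≤ 2 ⟨l + m, ρ⟩`.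

Leaves: L-AN1-O1 (`an1_castV_nsmul`, `an1_halfV_double`, `an1_dominant2`, `an1_moment_normalize`, `an1_dist_of_dot`).  The rest is proved glue.
-/

set_option autoImplicit false

namespace Claimed.Agent.R282

open Matrix Claims.C0456

variable {n : ℕ} {ι ι₁ ι₂ : Type} [Fintype ι] [DecidableEq ι] [Fintype ι₁] [DecidableEq ι₁]
  [Fintype ι₂] [DecidableEq ι₂]

/-! ## L-AN1-O1 -/

theorem an1_castV_nsmul (N : ℕ) (x : Fin n → ℤ) : castV (N • x) = (N : ℝ) • castV x := by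
  ext i
  simp [castV]

theorem an1_halfV_double (x : Fin n → ℤ) : halfV (fun i => 2 * x i) = castV x := by
  ext i
  simp [castV, halfV]

theorem an1_dominant2 (x : Fin n → ℤ) (h : Ty.D.Dom (castV x)) : IsDominantWeight2 (fun i => 2 * x i) := by
  refine ⟨fun i j => ⟨x i - x j, by ring⟩, fun i j hij => ?_⟩
  have h1 : |castV x j| ≤ castV x i := h i j hij
  have h2 : |x j| ≤ x i := by
    simp only [castV] at h1
    exact_mod_cast h1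
  rw [abs_mul]
  simp only [abs_two]
  linarith

theorem an1O_Jmat_smul (N : ℝ) (x : Vec n) : Jmat (N • x) = N • Jmat x := by
  ext p q
  simp only [Jmat, Matrix.smul_apply, Pi.smul_apply, smul_eq_mul]
  split_ifs <;> ring

/-- conjugate by `kᵀ` and scale by `N` -/
theorem an1_moment_normalize (lam mu xi : Vec n) (h : Ty.D.Moment lam mu xi) (N : ℝ) :
    ∃ g h : Matrix (Ix n) (Ix n) ℝ, g ∈ Matrix.specialOrthogonalGroup (Ix n) ℝ ∧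
      h ∈ Matrix.specialOrthogonalGroup (Ix n) ℝ ∧
      g * Jmat (N • lam) * gᵀ + h * Jmat (N • mu) * hᵀ = Jmat (N • xi) := by
  obtain ⟨g, h, k, e⟩ := h
  refine ⟨(k⁻¹ * g).1, (k⁻¹ * h).1, (k⁻¹ * g).2, (k⁻¹ * h).2, ?_⟩
  have hk : k.1ᵀ * k.1 = 1 := by
    have := k.2
    rw [Matrix.mem_specialOrthogonalGroup_iff, Matrix.mem_orthogonalGroup_iff'] at this
    exact this.1
  have hk1 : (k⁻¹ : Matrix.specialOrthogonalGroup (Fin n × Fin 2) ℝ).1 = k.1ᵀ := rfl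
  have e1 : (k⁻¹ * g).1 = k.1ᵀ * g.1 := rfl
  have e2 : (k⁻¹ * h).1 = k.1ᵀ * h.1 := rfl
  rw [e1, e2, an1O_Jmat_smul, an1O_Jmat_smul, an1O_Jmat_smul, transpose_mul, transpose_mul,
    transpose_transpose]
  have e3 : k.1ᵀ * (g.1 * Jmat lam * g.1ᵀ + h.1 * Jmat mu * h.1ᵀ) * k.1 = Jmat xi := by
    rw [e]
    calc k.1ᵀ * (k.1 * Jmat xi * k.1ᵀ) * k.1 = (k.1ᵀ * k.1) * Jmat xi * (k.1ᵀ * k.1) := by
          simp only [Matrix.mul_assoc]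
      _ = Jmat xi := by rw [hk, Matrix.one_mul, Matrix.mul_one]
  rw [← e3]
  simp only [Matrix.mul_smul, Matrix.smul_mul, Matrix.mul_add, Matrix.add_mul, Matrix.mul_assoc, smul_add]

/-- `(κ_i - N ξ_i)² ≤ |κ - N ξ|² ≤ 2 N c < N² ε²`; `dist_pi_lt_iff` -/
theorem an1_dist_of_dot (N : ℕ) (hN : 0 < N) (κ ξ : Vec n) (c ε : ℝ) (hε : 0 < ε)
    (h : dot (κ - (N : ℝ) • ξ) (κ - (N : ℝ) • ξ) ≤ 2 * ((N : ℝ) * c)) (hc : 2 * c < N * ε ^ 2) :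
    dist ((N : ℝ)⁻¹ • κ) ξ < ε := by
  have hN0 : (0 : ℝ) < N := by exact_mod_cast hN
  rw [dist_pi_lt_iff hε]
  intro i
  have h1 : (κ i - N * ξ i) ^ 2 ≤ dot (κ - (N : ℝ) • ξ) (κ - (N : ℝ) • ξ) := by
    unfold dot
    have := Finset.single_le_sum (f := fun i => (κ - (N : ℝ) • ξ) i * (κ - (N : ℝ) • ξ) i)
      (fun j _ => mul_self_nonneg _) (Finset.mem_univ i)
    simp only [Pi.sub_apply, Pi.smul_apply, smul_eq_mul] at this ⊢
    nlinarith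
  have h2 : (κ i - N * ξ i) ^ 2 < (N * ε) ^ 2 := by
    have : 2 * ((N : ℝ) * c) < N * (N * ε ^ 2) := by nlinarith
    nlinarith
  have h3 : |κ i - N * ξ i| < N * ε := abs_lt_of_sq_lt_sq h2 (by positivity)
  rw [Real.dist_eq, Pi.smul_apply, smul_eq_mul]
  have h4 : (N : ℝ)⁻¹ * κ i - ξ i = (N : ℝ)⁻¹ * (κ i - N * ξ i) := by
    field_simp
  rw [h4, abs_mul, abs_of_pos (inv_pos.2 hN0)]
  rw [inv_mul_lt_iff₀ hN0]
  exact h3

/-! ## glue -/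

theorem an1_cas_value (R₁ : StarRep Ty.D n ι₁) (R₂ : StarRep Ty.D n ι₂) (v₁ : ι₁ → ℂ) (v₂ : ι₂ → ℂ)
    (l m : Vec n) (h₁ : IsHW R₁ v₁ l) (h₂ : IsHW R₂ v₂ m) (g h : Matrix (Ix n) (Ix n) ℝ)
    (a : ι₁ → ℂ) (b : ι₂ → ℂ) (ha : a ∈ R₁.cyc v₁) (hb : b ∈ R₂.cyc v₂) (ra : RotHW R₁ l g a)
    (rb : RotHW R₂ m h b) :
    star (tmul a b) ⬝ᵥ (R₁.kron R₂).casimir.mulVec (tmul a b)
      = ((dot l l + 2 * dot l (rhoV n) : ℝ) : ℂ) + ((dot m m + 2 * dot m (rhoV n) : ℝ) : ℂ)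
        + trace (AdC g (Hc l) * AdC h (Hc m)) := by
  rw [an1_cas_tmul R₁ R₂ a b ra.unit rb.unit, rep_casimir R₁ v₁ l h₁ a ha, rep_casimir R₂ v₂ m h₂ b hb,
    dotProduct_smul, dotProduct_smul, ra.unit, rb.unit, smul_eq_mul, smul_eq_mul, mul_one, mul_one,
    an1_parseval _ _ (an1_inG_AdC g (an1_inG_Hc l)) (an1_inG_AdC h (an1_inG_Hc m))]
  congr 2
  · congr 1
    refine Finset.sum_congr rfl fun i _ => ?_
    rw [an1_rot_moment R₁ l g a ra _ (an1_inG_Hc _), an1_rot_moment R₂ m h b rb _ (an1_inG_Hc _)]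
  · congr 1
    refine congrArg rootSum (funext fun β => ?_)
    rw [an1_rot_moment R₁ l g a ra _ (isRootVec_rootVec β).1,
      an1_rot_moment R₂ m h b rb _ (isRootVec_rootVec β).1,
      an1_rot_moment R₁ l g a ra _ (an1_inG_conjTranspose (isRootVec_rootVec β).1),
      an1_rot_moment R₂ m h b rb _ (an1_inG_conjTranspose (isRootVec_rootVec β).1)]

theorem an1_moment_complex (l m ξ : Vec n) (g h : Matrix (Ix n) (Ix n) ℝ)
    (e : g * Jmat l * gᵀ + h * Jmat m * hᵀ = Jmat ξ) : AdC g (Hc l) + AdC h (Hc m) = Hc ξ := by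
  rw [an1_Hc_eq, an1_Hc_eq, an1_Hc_eq, an1_AdC_smul, an1_AdC_smul, an1_AdC_cM, an1_AdC_cM, ← smul_add,
    ← an1_cM_add, e]

theorem an1_trace_cross (l m ξ : Vec n) (g h : Matrix (Ix n) (Ix n) ℝ)
    (hg : g ∈ Matrix.specialOrthogonalGroup (Ix n) ℝ) (hh : h ∈ Matrix.specialOrthogonalGroup (Ix n) ℝ)
    (e : AdC g (Hc l) + AdC h (Hc m) = Hc ξ) :
    trace (AdC g (Hc l) * AdC h (Hc m)) = ((dot ξ ξ - dot l l - dot m m : ℝ) : ℂ) := by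
  have h1 := an1_trace_Hc ξ ξ
  rw [← e, mul_add, add_mul, add_mul, trace_add, trace_add, trace_add, (an1_trace_AdC hg _ _).2,
    (an1_trace_AdC hh _ _).2, trace_mul_comm (AdC h (Hc m)) (AdC g (Hc l))] at h1
  have h2 := an1_trace_Hc l l
  have h3 := an1_trace_Hc m m
  push_cast
  linear_combination h1 - h2 - h3

theorem an1_dot_list_nonneg (ξ : Vec n) (hξ : Ty.D.Dom ξ) (lst : List (RootD n))
    (h : ∀ β ∈ lst, β.Pos) : 0 ≤ dot (lst.map RootD.vec).sum ξ := by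
  induction lst with
  | nil => simp [dot_zero_left]
  | cons β t ih =>
    rw [List.map_cons, List.sum_cons, dot_add_left]
    exact add_nonneg (an1_pos_dom β (h β (by simp)) ξ hξ) (ih fun γ hγ => h γ (by simp [hγ]))

theorem an1_key (R₁ : StarRep Ty.D n ι₁) (R₂ : StarRep Ty.D n ι₂) (v₁ : ι₁ → ℂ) (v₂ : ι₂ → ℂ)
    (l m ξ : Vec n) (h₁ : IsHW R₁ v₁ l) (h₂ : IsHW R₂ v₂ m) (hξ : Ty.D.Dom ξ)
    (g h : Matrix (Ix n) (Ix n) ℝ) (hg : g ∈ Matrix.specialOrthogonalGroup (Ix n) ℝ)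
    (hh : h ∈ Matrix.specialOrthogonalGroup (Ix n) ℝ)
    (e : g * Jmat l * gᵀ + h * Jmat m * hᵀ = Jmat ξ) :
    ∃ (κ : Vec n) (z : ι₁ × ι₂ → ℂ), z ∈ tsub (R₁.cyc v₁) (R₂.cyc v₂) ∧ IsHW (R₁.kron R₂) z κ ∧
      dot (κ - ξ) (κ - ξ) ≤ 2 * dot (l + m) (rhoV n) := by
  obtain ⟨a, ha, ra⟩ := an1_rot_exists R₁ v₁ l h₁ g hg
  obtain ⟨b, hb, rb⟩ := an1_rot_exists R₂ v₂ m h₂ h hh
  have eC := an1_moment_complex l m ξ g h e
  have hD : ((R₁.kron R₂).casimir - (2 : ℂ) • (R₁.kron R₂).ρ (Hc ξ))ᴴ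
      = (R₁.kron R₂).casimir - (2 : ℂ) • (R₁.kron R₂).ρ (Hc ξ) := by
    rw [conjTranspose_sub, conjTranspose_smul, an1_casimir_herm, ← (R₁.kron R₂).star _ (an1_inG_Hc ξ),
      an1_Hc_conjTranspose]
    simp
  have hy : star (tmul a b) ⬝ᵥ tmul a b = 1 := by rw [an1_tmul_inner, ra.unit, rb.unit, mul_one]
  have hyS : tmul a b ∈ tsub (R₁.cyc v₁) (R₂.cyc v₂) := Submodule.subset_span ⟨a, ha, b, hb, rfl⟩
  have hS : (R₁.kron R₂).Inv (tsub (R₁.cyc v₁) (R₂.cyc v₂)) :=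
    rep_inv_tsub R₁ R₂ _ _ (fun X hX a ha => an1_cyc_inv R₁ v₁ X hX a ha)
      (fun X hX a ha => an1_cyc_inv R₂ v₂ X hX a ha)
  have hle : tsub (R₁.cyc v₁) (R₂.cyc v₂) ≤ Submodule.span ℂ {w : ι₁ × ι₂ → ℂ | ∃ d : ℝ,
      (∃ (κ : Vec n) (z : ι₁ × ι₂ → ℂ), z ∈ tsub (R₁.cyc v₁) (R₂.cyc v₂) ∧ IsHW (R₁.kron R₂) z κ ∧
        dot (κ - ξ) (κ - ξ) - dot ξ ξ ≤ d) ∧
      ((R₁.kron R₂).casimir - (2 : ℂ) • (R₁.kron R₂).ρ (Hc ξ)).mulVec w = (d : ℂ) • w} := by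
    refine (rep_split_span (R₁.kron R₂) _ hS).le.trans ?_
    refine iSup_le fun χ => iSup_le fun z => ?_
    obtain ⟨⟨hzS, hzw⟩, hzp⟩ := z.2
    by_cases hz0 : (z : ι₁ × ι₂ → ℂ) = 0
    · rw [hz0, an1_cyc_zero]; exact bot_le
    have hw : IsHW (R₁.kron R₂) (z : ι₁ × ι₂ → ℂ) χ := an1_isHW_of_prim _ _ hz0 χ hzw hzp
    refine (an1_cyc_words _ _ χ hw).trans (Submodule.span_mono ?_)
    rintro w ⟨lst, hpos, rfl⟩
    refine ⟨dot χ χ + 2 * dot χ (rhoV n) - 2 * dot (χ - (lst.map RootD.vec).sum) ξ,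
      ⟨χ, z, hzS, hw, ?_⟩, ?_⟩
    · have p1 := an1_dot_rho_nonneg χ (an1_hw_dom _ _ χ hw)
      have p2 := an1_dot_list_nonneg ξ hξ lst hpos
      rw [dot_sub_left, dot_sub_right, dot_sub_right, dot_sub_left, dot_comm ξ χ]
      linarith
    · rw [sub_mulVec, smul_mulVec, rep_casimir _ _ χ hw _ (an1_word_mem_cyc _ _ lst),
        an1_word_wt _ _ χ hw.wt lst ξ, smul_smul, ← sub_smul]
      congr 1
      push_cast
      ring
  obtain ⟨d, ⟨κ, z, hzS, hw, hd1⟩, hd2⟩ := an1_rayleigh _ hD _ (tmul a b) hy (hle hyS)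
  refine ⟨κ, z, hzS, hw, ?_⟩
  have hval : star (tmul a b) ⬝ᵥ ((R₁.kron R₂).casimir - (2 : ℂ) • (R₁.kron R₂).ρ (Hc ξ)).mulVec (tmul a b)
      = ((2 * dot (l + m) (rhoV n) - dot ξ ξ : ℝ) : ℂ) := by
    rw [sub_mulVec, smul_mulVec, dotProduct_sub, dotProduct_smul,
      an1_cas_value R₁ R₂ v₁ v₂ l m h₁ h₂ g h a b ha hb ra rb, an1_trace_cross l m ξ g h hg hh eC,
      an1_kron_tmul, dotProduct_add, an1_tmul_inner, an1_tmul_inner, ra.unit, rb.unit,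
      an1_rot_moment R₁ l g a ra _ (an1_inG_Hc ξ), an1_rot_moment R₂ m h b rb _ (an1_inG_Hc ξ),
      mul_one, one_mul, ← mul_add, ← trace_add, ← mul_add, eC, an1_trace_Hc, dot_add_left]
    push_cast
    rw [smul_eq_mul]
    ring
  rw [hval, Complex.ofReal_re] at hd2
  linarith

theorem an1_moment_repOcc_approx (lam mu xi : Fin n → ℤ) (hl : Ty.D.Dom (castV lam))
    (hm : Ty.D.Dom (castV mu)) (hx : Ty.D.Dom (castV xi))
    (h : Ty.D.Moment (castV lam) (castV mu) (castV xi)) (ε : ℝ) (hε : 0 < ε) :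
    ∃ N : ℕ, 0 < N ∧ ∃ κ : Fin n → ℤ, Ty.D.Dom (castV κ) ∧
      RepOcc Ty.D (castV (N • lam)) (castV (N • mu)) (castV κ) ∧
      dist ((N : ℝ)⁻¹ • castV κ) (castV xi) < ε := by
  obtain ⟨N, hN⟩ := exists_nat_gt (max 0 (2 * dot (castV lam + castV mu) (rhoV n) / ε ^ 2))
  have hN0 : (0 : ℝ) < N := lt_of_le_of_lt (le_max_left _ _) hN
  have hN1 : 0 < N := by exact_mod_cast hN0
  have hN2 : 2 * dot (castV lam + castV mu) (rhoV n) < N * ε ^ 2 := by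
    have := lt_of_le_of_lt (le_max_right _ _) hN
    rwa [div_lt_iff₀ (by positivity)] at this
  refine ⟨N, hN1, ?_⟩
  have dl : Ty.D.Dom (castV (N • lam)) := by
    rw [an1_castV_nsmul]
    intro i j hij
    have := hl i j hij
    simp only [Pi.smul_apply, smul_eq_mul, abs_mul, abs_of_pos hN0]
    exact mul_le_mul_of_nonneg_left this hN0.le
  have dm : Ty.D.Dom (castV (N • mu)) := by
    rw [an1_castV_nsmul]
    intro i j hij
    have := hm i j hij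
    simp only [Pi.smul_apply, smul_eq_mul, abs_mul, abs_of_pos hN0]
    exact mul_le_mul_of_nonneg_left this hN0.le
  have dx : Ty.D.Dom ((N : ℝ) • castV xi) := by
    intro i j hij
    have := hx i j hij
    simp only [Pi.smul_apply, smul_eq_mul, abs_mul, abs_of_pos hN0]
    exact mul_le_mul_of_nonneg_left this hN0.le
  obtain ⟨m₁, R₁, v₁, h₁⟩ := rep_exists _ (an1_dominant2 (N • lam) dl)
  obtain ⟨m₂, R₂, v₂, h₂⟩ := rep_exists _ (an1_dominant2 (N • mu) dm)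
  rw [an1_halfV_double] at h₁ h₂
  obtain ⟨g, k, hg, hk, e⟩ := an1_moment_normalize _ _ _ h (N : ℝ)
  rw [← an1_castV_nsmul, ← an1_castV_nsmul] at e
  obtain ⟨κ, z, hz, hw, hκ⟩ := an1_key R₁ R₂ v₁ v₂ _ _ _ h₁ h₂ dx g k hg hk e
  obtain ⟨κ', rfl⟩ := an1_hw_integral R₁ R₂ v₁ v₂ _ _ h₁ h₂ z hz κ hw
  refine ⟨κ', an1_hw_dom _ _ _ hw, an1_repOcc_of_prim R₁ R₂ v₁ v₂ _ _ _ h₁ h₂ z hz hw, ?_⟩
  refine an1_dist_of_dot N hN1 _ _ (dot (castV lam + castV mu) (rhoV n)) ε hε ?_ hN2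
  rw [an1_castV_nsmul, an1_castV_nsmul, ← smul_add, dot_smul_left] at hκ
  exact hκ

end Claimed.Agent.R282
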