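import Claimed.Agent.R282.S2AB.AN1.Rot

/-!
# Row 282, package AN1, block (S): tools for (K4)

Leaves:
* L-AN1-S1 (`an1_eigen_mem`, `an1_rayleigh`) : linear algebra of eigenvectors;
* L-AN1-S2 (`an1_word_mem_cyc`, `an1_word_wt`, `an1_cyc_words`) : the cyclic module is spanned by words in negative root vectors;
* L-AN1-S3 (`an1_isHW_of_prim`, `an1_hw_dom`, `an1_cyc_zero`, `an1_casimir_herm`) ;
* L-AN1-S4 (`an1_kron_tmul`, `an1_tmul_inner`, `an1_tmulL`, `an1_cas_tmul`) : the Casimir form on a decomposable tensor;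
* L-AN1-S5 (`an1_repOcc_of_prim`) ; L-AN1-S6 (`an1_hw_integral`).
-/

set_option autoImplicit false

namespace Claimed.Agent.R282

open Matrix

variable {n : ℕ} {ι ι₁ ι₂ : Type} [Fintype ι] [DecidableEq ι] [Fintype ι₁] [DecidableEq ι₁]
  [Fintype ι₂] [DecidableEq ι₂]

/-! ## L-AN1-S1 -/

/-- an eigenvector in the span of eigenvectors: its eigenvalue is one of theirs.
(`Module.End.eigenspaces_iSupIndep` for `Matrix.toLin' A`: the span is `≤ ⨆ d ≠ c, eigenspace d` if `¬ P c`.) -/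
theorem an1_eigen_mem (A : Matrix ι ι ℂ) (P : ℂ → Prop) (z : ι → ℂ) (hz : z ≠ 0) (c : ℂ)
    (hc : A.mulVec z = c • z)
    (hmem : z ∈ Submodule.span ℂ {w : ι → ℂ | ∃ d, P d ∧ A.mulVec w = d • w}) : P c := by
  by_contra hP
  have h1 : z ∈ Module.End.eigenspace (Matrix.toLin' A) c := by
    rw [Module.End.mem_eigenspace_iff, Matrix.toLin'_apply, hc]
  have h2 : Submodule.span ℂ {w : ι → ℂ | ∃ d, P d ∧ A.mulVec w = d • w}
      ≤ ⨆ (d : ℂ) (_ : d ≠ c), Module.End.eigenspace (Matrix.toLin' A) d := by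
    rw [Submodule.span_le]
    rintro w ⟨d, hd, hw⟩
    have hdc : d ≠ c := fun e => hP (e ▸ hd)
    have : w ∈ Module.End.eigenspace (Matrix.toLin' A) d := by
      rw [Module.End.mem_eigenspace_iff, Matrix.toLin'_apply, hw]
    exact Submodule.mem_iSup_of_mem d (Submodule.mem_iSup_of_mem hdc this)
  have h3 := (Module.End.eigenspaces_iSupIndep (Matrix.toLin' A)) c
  exact hz ((Submodule.disjoint_def.mp h3) z h1 (h2 hmem))

open Classical in
/-- **Rayleigh**: `y = ∑ y_d` (`Submodule.mem_iSup_iff_exists_finsupp` for `p d = if P d then eigenspace d else ⊥`), the `y_d` are pairwise orthogonal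
(`d ⟨y_d, y_e⟩ = ⟨D y_d, y_e⟩ = ⟨y_d, D y_e⟩ = e ⟨y_d, y_e⟩`), `⟨y, D y⟩ = ∑ d |y_d|²`, `1 = ∑ |y_d|²`; take the smallest `d` with `y_d ≠ 0`. -/
theorem an1_rayleigh (D : Matrix ι ι ℂ) (hD : Dᴴ = D) (P : ℝ → Prop) (y : ι → ℂ) (hy : star y ⬝ᵥ y = 1)
    (hmem : y ∈ Submodule.span ℂ {w : ι → ℂ | ∃ d : ℝ, P d ∧ D.mulVec w = (d : ℂ) • w}) :
    ∃ d : ℝ, P d ∧ d ≤ (star y ⬝ᵥ D.mulVec y).re := by
  set p : ℝ → Submodule ℂ (ι → ℂ) := fun d =>
    if P d then Module.End.eigenspace (Matrix.toLin' D) (d : ℂ) else ⊥ with hp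
  have h1 : Submodule.span ℂ {w : ι → ℂ | ∃ d : ℝ, P d ∧ D.mulVec w = (d : ℂ) • w} ≤ iSup p := by
    rw [Submodule.span_le]
    rintro w ⟨d, hd, hw⟩
    have : w ∈ p d := by
      simp only [hp, if_pos hd]
      rw [Module.End.mem_eigenspace_iff, Matrix.toLin'_apply, hw]
    exact Submodule.mem_iSup_of_mem d this
  obtain ⟨F, hF, hsum⟩ := (Submodule.mem_iSup_iff_exists_finsupp p y).mp (h1 hmem)
  have hPd : ∀ d ∈ F.support, P d := by
    intro d hd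
    by_contra hn
    have := hF d
    simp only [hp, if_neg hn, Submodule.mem_bot] at this
    exact (Finsupp.mem_support_iff.mp hd) this
  have hDd : ∀ d ∈ F.support, D.mulVec (F d) = (d : ℂ) • F d := by
    intro d hd
    have := hF d
    simp only [hp, if_pos (hPd d hd)] at this
    rwa [Module.End.mem_eigenspace_iff, Matrix.toLin'_apply] at this
  have hys : y = ∑ d ∈ F.support, F d := hsum.symm
  have horth : ∀ d ∈ F.support, ∀ e ∈ F.support, d ≠ e → star (F d) ⬝ᵥ F e = 0 := by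
    intro d hd e he hne
    have e1 : star (F d) ⬝ᵥ D.mulVec (F e) = (e : ℂ) * (star (F d) ⬝ᵥ F e) := by
      rw [hDd e he, dotProduct_smul, smul_eq_mul]
    have e2 : star (F d) ⬝ᵥ D.mulVec (F e) = (d : ℂ) * (star (F d) ⬝ᵥ F e) := by
      rw [an1_adj, hD, hDd d hd, star_smul, smul_dotProduct, smul_eq_mul]
      simp
    have e3 : ((d : ℂ) - (e : ℂ)) * (star (F d) ⬝ᵥ F e) = 0 := by
      rw [sub_mul, ← e1, ← e2, sub_self]
    rcases mul_eq_zero.mp e3 with h | h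
    · exfalso
      apply hne
      have : (d : ℂ) = (e : ℂ) := sub_eq_zero.mp h
      exact_mod_cast this
    · exact h
  have hyy : (1 : ℂ) = ∑ d ∈ F.support, star (F d) ⬝ᵥ F d := by
    rw [← hy]
    conv_lhs => rw [hys]
    rw [star_sum, sum_dotProduct]
    refine Finset.sum_congr rfl fun d hd => ?_
    rw [dotProduct_sum, Finset.sum_eq_single d]
    · intro e he hne
      exact horth d hd e he hne.symm
    · intro h; exact absurd hd h
  have hyD : star y ⬝ᵥ D.mulVec y = ∑ d ∈ F.support, (d : ℂ) * (star (F d) ⬝ᵥ F d) := by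
    conv_lhs => rw [hys]
    rw [star_sum, sum_dotProduct]
    refine Finset.sum_congr rfl fun d hd => ?_
    rw [mulVec_sum, dotProduct_sum, Finset.sum_eq_single d]
    · rw [hDd d hd, dotProduct_smul, smul_eq_mul]
    · intro e he hne
      rw [hDd e he, dotProduct_smul, horth d hd e he hne.symm, smul_zero]
    · intro h; exact absurd hd h
  have hre : ∀ v : ι → ℂ, v ≠ 0 → 0 < (star v ⬝ᵥ v).re ∧ (star v ⬝ᵥ v).im = 0 := by
    intro v hv
    have e : star v ⬝ᵥ v = ((∑ i, Complex.normSq (v i) : ℝ) : ℂ) := by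
      simp only [dotProduct, Pi.star_apply]
      push_cast
      refine Finset.sum_congr rfl fun i _ => ?_
      rw [Complex.star_def, mul_comm, Complex.mul_conj]
    rw [e]
    refine ⟨?_, Complex.ofReal_im _⟩
    rw [Complex.ofReal_re]
    obtain ⟨i, hi⟩ := Function.ne_iff.mp hv
    exact Finset.sum_pos' (fun i _ => Complex.normSq_nonneg _)
      ⟨i, Finset.mem_univ i, Complex.normSq_pos.mpr hi⟩
  have hne : F.support.Nonempty := by
    by_contra hn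
    rw [Finset.not_nonempty_iff_eq_empty] at hn
    rw [hn, Finset.sum_empty] at hyy
    exact one_ne_zero hyy
  set r := (star y ⬝ᵥ D.mulVec y).re with hr
  have s1 : ∑ d ∈ F.support, d * (star (F d) ⬝ᵥ F d).re = r := by
    rw [hr, hyD, Complex.re_sum]
    refine Finset.sum_congr rfl fun d hd => ?_
    rw [Complex.mul_re]
    simp
  have s2 : ∑ d ∈ F.support, r * (star (F d) ⬝ᵥ F d).re = r := by
    rw [← Finset.mul_sum, ← Complex.re_sum, ← hyy]
    simp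
  obtain ⟨d, hd, hle⟩ := Finset.exists_le_of_sum_le hne (le_of_eq (s1.trans s2.symm))
  exact ⟨d, hPd d hd, le_of_mul_le_mul_right hle (hre _ (Finsupp.mem_support_iff.mp hd)).1⟩

/-! ## L-AN1-S2 -/

/-- the word `f_{β₁} ⋯ f_{β_k} z`, `f_β = ρ (e_{-β})` -/
noncomputable def an1Word (R : StarRep Ty.D n ι) (z : ι → ℂ) : List (RootD n) → (ι → ℂ)
  | [] => z
  | β :: l => (R.ρ (rootVec β.neg)).mulVec (an1Word R z l)

theorem an1_word_mem_cyc (R : StarRep Ty.D n ι) (z : ι → ℂ) (l : List (RootD n)) :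
    an1Word R z l ∈ R.cyc z := by
  induction l with
  | nil => exact an1_mem_cyc R z
  | cons β l ih => exact an1_cyc_inv R z _ (isRootVec_rootVec β.neg).1 _ ih

/-- `ρ(X) ρ(Y) w = ρ(Y) ρ(X) w + ρ([X, Y]) w` -/
theorem an1_S2_comm (R : StarRep Ty.D n ι) (X Y : Matrix (Ix n) (Ix n) ℂ) (hX : Ty.D.InG X)
    (hY : Ty.D.InG Y) (w : ι → ℂ) :
    (R.ρ X).mulVec ((R.ρ Y).mulVec w) = (R.ρ Y).mulVec ((R.ρ X).mulVec w)
      + (R.ρ (X * Y - Y * X)).mulVec w := by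
  rw [R.bracket X Y hX hY, sub_mulVec, mulVec_mulVec, mulVec_mulVec]
  abel

/-- induction; `ρ(H) ρ(f) w = ρ(f) ρ(H) w + ρ([H, f]) w`, `isRootVec_rootVec β.neg`, `an1_neg_vec` -/
theorem an1_word_wt (R : StarRep Ty.D n ι) (z : ι → ℂ) (κ : Vec n)
    (hwt : ∀ x : Vec n, (R.ρ (Hc x)).mulVec z = ((dot κ x : ℝ) : ℂ) • z) (l : List (RootD n)) (x : Vec n) :
    (R.ρ (Hc x)).mulVec (an1Word R z l)
      = ((dot (κ - (l.map RootD.vec).sum) x : ℝ) : ℂ) • an1Word R z l := by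
  induction l with
  | nil => simpa [an1Word] using hwt x
  | cons β l ih =>
    show (R.ρ (Hc x)).mulVec ((R.ρ (rootVec β.neg)).mulVec (an1Word R z l)) = _ • (R.ρ (rootVec β.neg)).mulVec (an1Word R z l)
    rw [an1_S2_comm R _ _ (an1_inG_Hc x) (isRootVec_rootVec β.neg).1, ih,
      (isRootVec_rootVec β.neg).2 x, map_smul, smul_mulVec, mulVec_smul, ← add_smul]
    congr 1
    rw [List.map_cons, List.sum_cons, an1_neg_vec, dot_neg_left, dot_sub_left, dot_sub_left,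
      dot_add_left]
    push_cast
    ring

/-- `Z` = span of the words with positive letters.  Claim: `ρ(X) (word l) ∈ Z` for all `X ∈ g`, by induction on `l`.
`l = []`: expand `X` (`an1_expand` or `inG_span`): torus: scalar; `e_β`, `β > 0`: `0`; `e_β`, `β` not positive: `e_β = e_{(-β).neg}`, the word `[-β]`.
`l = β :: l'`: `ρ(X) ρ(f_β) w' = ρ(f_β) (ρ(X) w') + ρ([X, f_β]) w'`; both terms by the induction hypothesis (`[X, f_β] ∈ g`: `an1_inG_bracket`) and because `Z` is stable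
under `ρ(f_β)` (words go to words).  Then `an1_cyc_le`. -/
theorem an1_cyc_words (R : StarRep Ty.D n ι) (z : ι → ℂ) (κ : Vec n) (h : IsHW R z κ) :
    R.cyc z ≤ Submodule.span ℂ {w : ι → ℂ | ∃ l : List (RootD n), (∀ β ∈ l, β.Pos) ∧ w = an1Word R z l} := by
  set Z := Submodule.span ℂ {w : ι → ℂ | ∃ l : List (RootD n), (∀ β ∈ l, β.Pos) ∧ w = an1Word R z l}
    with hZ
  -- `Z` is stable under the negative root vectors
  have hf : ∀ β : RootD n, β.Pos → ∀ w ∈ Z, (R.ρ (rootVec β.neg)).mulVec w ∈ Z := by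
    intro β hβ
    have : Z ≤ Z.comap (Matrix.toLin' (R.ρ (rootVec β.neg))) := by
      rw [hZ, Submodule.span_le]
      rintro w ⟨l, hl, rfl⟩
      show Matrix.toLin' (R.ρ (rootVec β.neg)) (an1Word R z l) ∈ Z
      rw [Matrix.toLin'_apply]
      apply Submodule.subset_span
      refine ⟨β :: l, ?_, rfl⟩
      intro γ hγ
      rcases List.mem_cons.mp hγ with rfl | hγ
      · exact hβ
      · exact hl γ hγ
    intro w hw
    have := this hw
    rwa [Submodule.mem_comap, Matrix.toLin'_apply] at this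
  have hzZ : z ∈ Z := Submodule.subset_span ⟨[], by simp, rfl⟩
  -- the words
  have key : ∀ l : List (RootD n), (∀ β ∈ l, β.Pos) → ∀ X, Ty.D.InG X →
      (R.ρ X).mulVec (an1Word R z l) ∈ Z := by
    intro l
    induction l with
    | nil =>
      intro _ X hX
      show (R.ρ X).mulVec z ∈ Z
      rw [an1_expand X hX, map_add, map_sum, map_smul, add_mulVec, smul_mulVec]
      refine Z.add_mem ?_ (Z.smul_mem _ ?_)
      · rw [Matrix.sum_mulVec]
        refine Z.sum_mem fun i _ => ?_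
        rw [map_smul, smul_mulVec, h.wt]
        exact Z.smul_mem _ (Z.smul_mem _ hzZ)
      · have e1 := an1_rootSum_map (((LinearMap.applyₗ z).comp
          ((Matrix.toLin' (R := ℂ) (m := ι) (n := ι)).toLinearMap.comp R.ρ)).toAddMonoidHom)
          (fun β : RootD n => ((1 / 2 : ℂ) * trace (X * (rootVec β)ᴴ)) • rootVec β)
        simp only [LinearMap.toAddMonoidHom_coe, LinearMap.comp_apply, LinearMap.applyₗ_apply_apply,
          LinearEquiv.coe_coe, Matrix.toLin'_apply] at e1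
        rw [e1]
        unfold rootSum
        refine Z.sum_mem fun i _ => Z.sum_mem fun j _ => Z.sum_mem fun s _ => Z.sum_mem fun t _ => ?_
        by_cases hij : i ≠ j
        · rw [dif_pos hij]
          beta_reduce
          rw [map_smul, smul_mulVec]
          apply Z.smul_mem
          rcases an1_pos_or_neg ⟨i, j, hij, s, t⟩ with hp | hp
          · rw [h.top _ _ hp (isRootVec_rootVec _)]
            exact Z.zero_mem
          · have := hf _ hp z hzZ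
            rwa [an1_neg_neg] at this
        · rw [dif_neg hij]
          exact Z.zero_mem
    | cons β l ih =>
      intro hl X hX
      have hβ : β.Pos := hl β (by simp)
      have hl' : ∀ γ ∈ l, γ.Pos := fun γ hγ => hl γ (by simp [hγ])
      show (R.ρ X).mulVec ((R.ρ (rootVec β.neg)).mulVec (an1Word R z l)) ∈ Z
      rw [an1_S2_comm R _ _ hX (isRootVec_rootVec β.neg).1]
      exact Z.add_mem (hf β hβ _ (ih hl' X hX))
        (ih hl' _ (an1_inG_bracket hX (isRootVec_rootVec β.neg).1))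
  apply an1_cyc_le R z Z hzZ
  intro X hX
  have : Z ≤ Z.comap (Matrix.toLin' (R.ρ X)) := by
    rw [hZ, Submodule.span_le]
    rintro w ⟨l, hl, rfl⟩
    show Matrix.toLin' (R.ρ X) (an1Word R z l) ∈ Z
    rw [Matrix.toLin'_apply]
    exact key l hl X hX
  intro w hw
  have := this hw
  rwa [Submodule.mem_comap, Matrix.toLin'_apply] at this

/-! ## L-AN1-S3 -/

/-- `isRootVec_unique` -/
theorem an1_isHW_of_prim (R : StarRep Ty.D n ι) (z : ι → ℂ) (hz : z ≠ 0) (χ : Vec n) (h1 : z ∈ R.wt χ)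
    (h2 : z ∈ R.prim) : IsHW R z χ where
  ne := hz
  wt := by
    intro x
    unfold StarRep.wt at h1
    rw [Submodule.mem_iInf] at h1
    have := h1 x
    rw [LinearMap.mem_ker, LinearMap.sub_apply, LinearMap.smul_apply, LinearMap.id_apply, sub_eq_zero] at this
    exact this
  top := by
    intro β E hβ hE
    obtain ⟨c, rfl⟩ := isRootVec_unique β E hE
    unfold StarRep.prim at h2
    rw [Submodule.mem_iInf] at h2
    have := h2 ⟨β, hβ, trivial⟩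
    rw [LinearMap.mem_ker] at this
    have e : (R.ρ (rootVec β)).mulVec z = 0 := this
    rw [map_smul, smul_mulVec, e, smul_zero]

theorem an1_S3_norm (v : ι → ℂ) : 0 ≤ (star v ⬝ᵥ v).re ∧ (v ≠ 0 → 0 < (star v ⬝ᵥ v).re) := by
  have e : star v ⬝ᵥ v = ((∑ i, Complex.normSq (v i) : ℝ) : ℂ) := by
    simp only [dotProduct, Pi.star_apply]
    push_cast
    refine Finset.sum_congr rfl fun i _ => ?_
    rw [Complex.star_def, mul_comm, Complex.mul_conj]
  rw [e, Complex.ofReal_re]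
  refine ⟨Finset.sum_nonneg fun i _ => Complex.normSq_nonneg _, fun hv => ?_⟩
  obtain ⟨i, hi⟩ := Function.ne_iff.mp hv
  exact Finset.sum_pos' (fun i _ => Complex.normSq_nonneg _)
    ⟨i, Finset.mem_univ i, Complex.normSq_pos.mpr hi⟩

/-- `⟨κ, β⟩ |z|² = ⟨z, ρ(H_β) z⟩ = ⟨z, (e eᴴ - eᴴ e) z⟩ = |eᴴ z|² ≥ 0` (`rootVec_bracket`, `R.bracket`, `R.star`), then `an1_dom_of_pos` -/
theorem an1_hw_dom (R : StarRep Ty.D n ι) (z : ι → ℂ) (κ : Vec n) (h : IsHW R z κ) : Ty.D.Dom κ := by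
  apply an1_dom_of_pos
  intro β hβ
  have hG := (isRootVec_rootVec β).1
  have hG' := an1_inG_conjTranspose hG
  have e0 : (R.ρ (rootVec β)).mulVec z = 0 := h.top β _ hβ (isRootVec_rootVec β)
  have e1 : (R.ρ (Hc β.vec)).mulVec z = (R.ρ (rootVec β)).mulVec ((R.ρ (rootVec β)ᴴ).mulVec z) := by
    rw [← rootVec_bracket, R.bracket _ _ hG hG', sub_mulVec, ← mulVec_mulVec, ← mulVec_mulVec, e0,
      mulVec_zero, sub_zero]
  have e2 : star z ⬝ᵥ (R.ρ (Hc β.vec)).mulVec z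
      = star ((R.ρ (rootVec β)ᴴ).mulVec z) ⬝ᵥ (R.ρ (rootVec β)ᴴ).mulVec z := by
    rw [e1, an1_adj, ← R.star _ hG]
  rw [h.wt, dotProduct_smul, smul_eq_mul] at e2
  have e3 := congrArg Complex.re e2
  rw [Complex.re_ofReal_mul] at e3
  have p1 := (an1_S3_norm ((R.ρ (rootVec β)ᴴ).mulVec z)).1
  have p2 := (an1_S3_norm z).2 h.ne
  rw [← e3] at p1
  rw [dot_comm]
  exact nonneg_of_mul_nonneg_left p1 p2

theorem an1_cyc_zero (R : StarRep Ty.D n ι) : R.cyc 0 = ⊥ := by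
  rw [eq_bot_iff]
  apply an1_cyc_le R 0 ⊥ (Submodule.zero_mem _)
  intro X _ a ha
  rw [Submodule.mem_bot] at ha ⊢
  rw [ha, mulVec_zero]

theorem an1_casimir_eq (R : StarRep Ty.D n ι) :
    R.casimir = ∑ i : Fin n, R.ρ (Hc (Pi.single i 1)) * R.ρ (Hc (Pi.single i 1))
      + (1 / 2 : ℂ) • rootSum fun β => R.ρ (rootVec β) * R.ρ (rootVec β)ᴴ := by
  unfold StarRep.casimir rootSum
  refine congrArg (fun w => ∑ i : Fin n, R.ρ (Hc (Pi.single i 1)) * R.ρ (Hc (Pi.single i 1))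
      + (1 / 2 : ℂ) • w) ?_
  refine Finset.sum_congr rfl fun i _ => Finset.sum_congr rfl fun j _ =>
    Finset.sum_congr rfl fun s _ => Finset.sum_congr rfl fun t _ => ?_
  by_cases h : i ≠ j
  · rw [dif_pos h, dif_pos h]
    beta_reduce
    rw [R.star _ (isRootVec_rootVec _).1]
  · rw [dif_neg h, dif_neg h]

theorem an1_casimir_herm (R : StarRep Ty.D n ι) : R.casimirᴴ = R.casimir := by
  rw [an1_casimir_eq, conjTranspose_add, conjTranspose_sum, conjTranspose_smul]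
  congr 1
  · refine Finset.sum_congr rfl fun i _ => ?_
    rw [conjTranspose_mul, ← R.star _ (an1_inG_Hc _), an1_Hc_conjTranspose]
  · have h1 := an1_rootSum_map (Matrix.conjTransposeAddEquiv ι ι ℂ).toAddMonoidHom
      (fun β : RootD n => R.ρ (rootVec β) * R.ρ (rootVec β)ᴴ)
    simp only [AddEquiv.toAddMonoidHom_eq_coe, AddMonoidHom.coe_coe, conjTransposeAddEquiv_apply] at h1
    rw [h1]
    congr 1
    · simp
    · refine congrArg rootSum (funext fun β => ?_)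
      rw [conjTranspose_mul, R.star _ (isRootVec_rootVec β).1, conjTranspose_conjTranspose]

/-! ## L-AN1-S4 -/

theorem an1_S4_kron_mulVec (A : Matrix ι₁ ι₁ ℂ) (B : Matrix ι₂ ι₂ ℂ) (a : ι₁ → ℂ) (b : ι₂ → ℂ) :
    (kroneckerMap (· * ·) A B).mulVec (tmul a b) = tmul (A.mulVec a) (B.mulVec b) := by
  funext ⟨i, j⟩
  simp only [mulVec, dotProduct, kroneckerMap_apply, tmul, Fintype.sum_prod_type, Finset.sum_mul_sum]
  refine Finset.sum_congr rfl fun k _ => Finset.sum_congr rfl fun l _ => ?_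
  ring

theorem an1_kron_tmul (R₁ : StarRep Ty.D n ι₁) (R₂ : StarRep Ty.D n ι₂) (X : Matrix (Ix n) (Ix n) ℂ)
    (a : ι₁ → ℂ) (b : ι₂ → ℂ) :
    ((R₁.kron R₂).ρ X).mulVec (tmul a b) = tmul ((R₁.ρ X).mulVec a) b + tmul a ((R₂.ρ X).mulVec b) := by
  show (kroneckerMap (· * ·) (R₁.ρ X) (1 : Matrix ι₂ ι₂ ℂ) +
        kroneckerMap (· * ·) (1 : Matrix ι₁ ι₁ ℂ) (R₂.ρ X)).mulVec (tmul a b) = _
  rw [add_mulVec, an1_S4_kron_mulVec, an1_S4_kron_mulVec, one_mulVec, one_mulVec]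

theorem an1_tmul_inner (a a' : ι₁ → ℂ) (b b' : ι₂ → ℂ) :
    star (tmul a b) ⬝ᵥ tmul a' b' = (star a ⬝ᵥ a') * (star b ⬝ᵥ b') := by
  simp only [dotProduct, tmul, Pi.star_apply, Fintype.sum_prod_type, Finset.sum_mul_sum, star_mul']
  refine Finset.sum_congr rfl fun k _ => Finset.sum_congr rfl fun l _ => ?_
  ring

/-- `tmul` as a bilinear map -/
def an1_tmulL (ι₁ ι₂ : Type) : (ι₁ → ℂ) →ₗ[ℂ] (ι₂ → ℂ) →ₗ[ℂ] (ι₁ × ι₂ → ℂ) :=
  LinearMap.mk₂ ℂ tmul
    (by intro a a' b; funext p; simp [tmul, add_mul])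
    (by intro c a b; funext p; simp [tmul, mul_assoc])
    (by intro a b b'; funext p; simp [tmul, mul_add])
    (by intro c a b; funext p; simp [tmul, mul_left_comm])

theorem an1_tmulL_apply (a : ι₁ → ℂ) (b : ι₂ → ℂ) : an1_tmulL ι₁ ι₂ a b = tmul a b := rfl

/-- `M ↦ ⟨y, M y⟩` -/
def an1_S4_L (y : ι → ℂ) : Matrix ι ι ℂ →ₗ[ℂ] ℂ where
  toFun M := star y ⬝ᵥ M.mulVec y
  map_add' := by intro M N; rw [add_mulVec, dotProduct_add]
  map_smul' := by intro c M; rw [smul_mulVec, dotProduct_smul]; rfl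

theorem an1_S4_L_apply (y : ι → ℂ) (M : Matrix ι ι ℂ) : an1_S4_L y M = star y ⬝ᵥ M.mulVec y := rfl

theorem an1_S4_L_cas (R : StarRep Ty.D n ι) (y : ι → ℂ) :
    star y ⬝ᵥ R.casimir.mulVec y
      = ∑ i : Fin n, an1_S4_L y (R.ρ (Hc (Pi.single i 1)) * R.ρ (Hc (Pi.single i 1)))
        + (1 / 2 : ℂ) * rootSum fun β => an1_S4_L y (R.ρ (rootVec β) * R.ρ (rootVec β)ᴴ) := by
  rw [← an1_S4_L_apply, an1_casimir_eq, map_add, map_sum, map_smul, smul_eq_mul]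
  congr 2
  exact an1_rootSum_map (an1_S4_L y).toAddMonoidHom _

theorem an1_S4_quad (R₁ : StarRep Ty.D n ι₁) (R₂ : StarRep Ty.D n ι₂) (a : ι₁ → ℂ) (b : ι₂ → ℂ)
    (ha : star a ⬝ᵥ a = 1) (hb : star b ⬝ᵥ b = 1) (X X' : Matrix (Ix n) (Ix n) ℂ) :
    an1_S4_L (tmul a b) ((R₁.kron R₂).ρ X * (R₁.kron R₂).ρ X')
      = an1_S4_L a (R₁.ρ X * R₁.ρ X') + an1_S4_L b (R₂.ρ X * R₂.ρ X')
        + ((star a ⬝ᵥ (R₁.ρ X).mulVec a) * (star b ⬝ᵥ (R₂.ρ X').mulVec b)
          + (star a ⬝ᵥ (R₁.ρ X').mulVec a) * (star b ⬝ᵥ (R₂.ρ X).mulVec b)) := by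
  rw [an1_S4_L_apply, an1_S4_L_apply, an1_S4_L_apply, ← mulVec_mulVec, ← mulVec_mulVec, ← mulVec_mulVec,
    an1_kron_tmul, mulVec_add, an1_kron_tmul, an1_kron_tmul, dotProduct_add, dotProduct_add,
    dotProduct_add, an1_tmul_inner, an1_tmul_inner, an1_tmul_inner, an1_tmul_inner, ha, hb]
  ring

/-- `ρ(X) ρ(X') (a ⊗ b) = ρ₁(X) ρ₁(X') a ⊗ b + ρ₁(X') a ⊗ ρ₂(X) b + ρ₁(X) a ⊗ ρ₂(X') b + a ⊗ ρ₂(X) ρ₂(X') b`; pair with `a ⊗ b`; sum over the terms of
`an1_casimir_eq`. -/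
theorem an1_cas_tmul (R₁ : StarRep Ty.D n ι₁) (R₂ : StarRep Ty.D n ι₂) (a : ι₁ → ℂ) (b : ι₂ → ℂ)
    (ha : star a ⬝ᵥ a = 1) (hb : star b ⬝ᵥ b = 1) :
    star (tmul a b) ⬝ᵥ (R₁.kron R₂).casimir.mulVec (tmul a b)
      = star a ⬝ᵥ R₁.casimir.mulVec a + star b ⬝ᵥ R₂.casimir.mulVec b
        + (2 * ∑ i : Fin n, (star a ⬝ᵥ (R₁.ρ (Hc (Pi.single i 1))).mulVec a) *
            (star b ⬝ᵥ (R₂.ρ (Hc (Pi.single i 1))).mulVec b)
          + (1 / 2 : ℂ) * rootSum fun β =>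
            (star a ⬝ᵥ (R₁.ρ (rootVec β)).mulVec a) * (star b ⬝ᵥ (R₂.ρ (rootVec β)ᴴ).mulVec b)
            + (star a ⬝ᵥ (R₁.ρ (rootVec β)ᴴ).mulVec a) * (star b ⬝ᵥ (R₂.ρ (rootVec β)).mulVec b)) := by
  rw [an1_S4_L_cas, an1_S4_L_cas, an1_S4_L_cas]
  simp_rw [an1_S4_quad R₁ R₂ a b ha hb]
  rw [an1_rootSum_add, an1_rootSum_add, Finset.sum_add_distrib, Finset.sum_add_distrib,
    Finset.mul_sum]
  have : ∀ i : Fin n, (star a ⬝ᵥ (R₁.ρ (Hc (Pi.single i 1))).mulVec a) *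
            (star b ⬝ᵥ (R₂.ρ (Hc (Pi.single i 1))).mulVec b) + (star a ⬝ᵥ (R₁.ρ (Hc (Pi.single i 1))).mulVec a) *
            (star b ⬝ᵥ (R₂.ρ (Hc (Pi.single i 1))).mulVec b) = 2 * ((star a ⬝ᵥ (R₁.ρ (Hc (Pi.single i 1))).mulVec a) *
            (star b ⬝ᵥ (R₂.ρ (Hc (Pi.single i 1))).mulVec b)) := fun i => by ring
  simp_rw [this]
  ring

/-! ## L-AN1-S5 -/

open scoped ComplexOrder in
/-- `R₃` = `R₁.kron R₂` reindexed along `finProdFinEquiv` (`Matrix.reindexLinearEquiv`), `T a b = tmul a b` reindexed, `v₃ = c = z` reindexed.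
`⟨z, z⟩ ≠ 0` and `z ∈ span {tmul a b}` give `a`, `b` with `⟨z, tmul a b⟩ ≠ 0`.  `IsHW` is transported entry by entry. -/
theorem an1_repOcc_of_prim {m₁ m₂ : ℕ} (R₁ : StarRep Ty.D n (Fin m₁)) (R₂ : StarRep Ty.D n (Fin m₂))
    (v₁ : Fin m₁ → ℂ) (v₂ : Fin m₂ → ℂ) (l m κ : Vec n) (h₁ : IsHW R₁ v₁ l) (h₂ : IsHW R₂ v₂ m)
    (z : Fin m₁ × Fin m₂ → ℂ) (hz : z ∈ tsub (R₁.cyc v₁) (R₂.cyc v₂)) (hw : IsHW (R₁.kron R₂) z κ) :
    RepOcc Ty.D l m κ := by
  let e : Fin m₁ × Fin m₂ ≃ Fin (m₁ * m₂) := finProdFinEquiv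
  let T : (Fin m₁ → ℂ) →ₗ[ℂ] (Fin m₂ → ℂ) →ₗ[ℂ] (Fin (m₁ * m₂) → ℂ) :=
    (an1_tmulL (Fin m₁) (Fin m₂)).compr₂ (LinearMap.funLeft ℂ ℂ e.symm)
  have hT : ∀ a b, T a b = tmul a b ∘ e.symm := fun _ _ => rfl
  have e3 : ∀ c d : Fin m₁ × Fin m₂ → ℂ, star (c ∘ e.symm) ⬝ᵥ (d ∘ e.symm) = star c ⬝ᵥ d := by
    intro c d
    simp only [dotProduct]
    exact Equiv.sum_comp e.symm (fun i => star c i * d i)
  have hex : ∃ a ∈ R₁.cyc v₁, ∃ b ∈ R₂.cyc v₂, star z ⬝ᵥ tmul a b ≠ 0 := by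
    by_contra hcon
    push Not at hcon
    have hle : tsub (R₁.cyc v₁) (R₂.cyc v₂) ≤
        LinearMap.ker (dotProductBilin ℂ ℂ (star z)) := by
      unfold tsub
      rw [Submodule.span_le]
      rintro _ ⟨a, ha, b, hb, rfl⟩
      exact hcon a ha b hb
    have h0 : star z ⬝ᵥ z = 0 := hle hz
    exact hw.ne (dotProduct_star_self_eq_zero.1 h0)
  obtain ⟨a, ha, b, hb, hab⟩ := hex
  refine ⟨m₁, m₂, m₁ * m₂, R₁, R₂, (R₁.kron R₂).reindex e, T, v₁, v₂, z ∘ e.symm, ?_, h₁, h₂,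
    reindex_isHW _ e z κ hw, a, ha, b, hb, z ∘ e.symm, mem_cyc _ _, ?_⟩
  · intro X _ a b
    rw [hT, hT, hT]
    have := reindex_op (R₁.kron R₂) e X (tmul a b)
    rw [op_apply, op_apply] at this
    rw [this, an1_kron_tmul]
    rfl
  · rw [hT, e3]
    exact hab

/-! ## L-AN1-S6 -/

theorem an1S6_vec_int (β : RootD n) (j : Fin n) : ∃ k : ℤ, β.vec j = k := by
  have hs : ∀ b : Bool, ∃ k : ℤ, sgnB b = k := by
    intro b
    cases b
    · exact ⟨1, by simp [sgnB]⟩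
    · exact ⟨-1, by simp [sgnB]⟩
  obtain ⟨k1, h1⟩ := hs β.si
  obtain ⟨k2, h2⟩ := hs β.sj
  refine ⟨(if j = β.i then k1 else 0) + (if j = β.j then k2 else 0), ?_⟩
  simp only [RootD.vec, h1, h2]
  push_cast
  rfl

theorem an1S6_sum_int (lst : List (RootD n)) (j : Fin n) :
    ∃ k : ℤ, (lst.map RootD.vec).sum j = k := by
  induction lst with
  | nil => exact ⟨0, by simp⟩
  | cons β t ih =>
    obtain ⟨k, hk⟩ := ih
    obtain ⟨k', hk'⟩ := an1S6_vec_int β j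
    exact ⟨k' + k, by rw [List.map_cons, List.sum_cons, Pi.add_apply, hk, hk']; push_cast; rfl⟩

theorem an1S6_dot_single (x : Vec n) (i : Fin n) : dot x (Pi.single i 1) = x i := by
  simp [dot, Pi.single_apply]

/-- fix `j`, `A = (R₁.kron R₂).ρ (Hc e_j)`.  `tsub (cyc v₁) (cyc v₂) ≤ span {tmul w₁ w₂ | w_k words}` (`an1_cyc_words`, bilinearity), `A (tmul w₁ w₂) = (integer) • tmul w₁ w₂`
(`an1_kron_tmul`, `an1_word_wt`; the coordinates of `β.vec` are integers); `an1_eigen_mem` with `P d = ∃ k : ℤ, d = k`. -/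
theorem an1_hw_integral (R₁ : StarRep Ty.D n ι₁) (R₂ : StarRep Ty.D n ι₂) (v₁ : ι₁ → ℂ) (v₂ : ι₂ → ℂ)
    (l m : Fin n → ℤ) (h₁ : IsHW R₁ v₁ (castV l)) (h₂ : IsHW R₂ v₂ (castV m)) (z : ι₁ × ι₂ → ℂ)
    (hz : z ∈ tsub (R₁.cyc v₁) (R₂.cyc v₂)) (κ : Vec n) (hw : IsHW (R₁.kron R₂) z κ) :
    ∃ κ' : Fin n → ℤ, κ = castV κ' := by
  have key : ∀ j : Fin n, ∃ k : ℤ, κ j = k := by
    intro j
    set A := (R₁.kron R₂).ρ (Hc (Pi.single j 1)) with hA
    set W := Submodule.span ℂ {w : ι₁ × ι₂ → ℂ | ∃ d : ℂ, (∃ k : ℤ, d = k) ∧ A.mulVec w = d • w}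
      with hW
    -- words
    have hww : ∀ l₁ l₂ : List (RootD n), tmul (an1Word R₁ v₁ l₁) (an1Word R₂ v₂ l₂) ∈ W := by
      intro l₁ l₂
      apply Submodule.subset_span
      obtain ⟨k₁, hk₁⟩ := an1S6_sum_int l₁ j
      obtain ⟨k₂, hk₂⟩ := an1S6_sum_int l₂ j
      refine ⟨((l j - k₁ + (m j - k₂) : ℤ) : ℂ), ⟨_, rfl⟩, ?_⟩
      rw [hA, an1_kron_tmul, an1_word_wt R₁ v₁ _ h₁.wt, an1_word_wt R₂ v₂ _ h₂.wt,
        an1S6_dot_single, an1S6_dot_single, Pi.sub_apply, Pi.sub_apply, hk₁, hk₂]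
      funext p
      simp only [tmul, castV, Pi.add_apply, Pi.smul_apply, smul_eq_mul]
      push_cast
      ring
    have h1 : ∀ l₂ : List (RootD n), ∀ a ∈ R₁.cyc v₁, tmul a (an1Word R₂ v₂ l₂) ∈ W := by
      intro l₂
      have : R₁.cyc v₁ ≤ W.comap ((an1_tmulL ι₁ ι₂).flip (an1Word R₂ v₂ l₂)) := by
        refine (an1_cyc_words R₁ v₁ _ h₁).trans ?_
        rw [Submodule.span_le]
        rintro _ ⟨l₁, _, rfl⟩
        exact hww l₁ l₂
      intro a ha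
      exact this ha
    have h2 : ∀ a ∈ R₁.cyc v₁, ∀ b ∈ R₂.cyc v₂, tmul a b ∈ W := by
      intro a ha
      have : R₂.cyc v₂ ≤ W.comap (an1_tmulL ι₁ ι₂ a) := by
        refine (an1_cyc_words R₂ v₂ _ h₂).trans ?_
        rw [Submodule.span_le]
        rintro _ ⟨l₂, _, rfl⟩
        exact h1 l₂ a ha
      intro b hb
      exact this hb
    have h3 : z ∈ W := by
      have : tsub (R₁.cyc v₁) (R₂.cyc v₂) ≤ W := by
        unfold tsub
        rw [Submodule.span_le]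
        rintro _ ⟨a, ha, b, hb, rfl⟩
        exact h2 a ha b hb
      exact this hz
    obtain ⟨k, hk⟩ := an1_eigen_mem A (fun d => ∃ k : ℤ, d = k) z hw.ne _ (hw.wt (Pi.single j 1)) h3
    rw [an1S6_dot_single] at hk
    exact ⟨k, by exact_mod_cast hk⟩
  choose κ' hκ' using key
  exact ⟨κ', funext hκ'⟩

end Claimed.Agent.R282
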