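import Claimed.Agent.R282.Rep.Tree
import Claimed.Agent.R282.Defs.Dot

/-!
# Row 282, Sec. 2, package AN1 (architect helper44): definitions and the algebra block (A)

AN1 proves (K0) `repOcc_moment` and (K4) `moment_repOcc_approx` of `S2AB/Contracts.lean`.

DESIGN (differs from `S2AB/Plan.lean`: no words, no orbit closures, no Kronecker powers, no weight variance,
no orthogonal splitting).  The central object is a ROTATED HIGHEST WEIGHT VECTOR:
`RotHW R lam g a` : `g ∈ SO(2n)`, `|a| = 1` and `a` is a highest weight vector of weight `lam` for the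
torus / Borel rotated by `g`:  `ρ(g H(x) gᵀ) a = ⟨lam, x⟩ a`,  `ρ(g e_β gᵀ) a = 0` (`β > 0`).
* the set of all `(g, a)` is COMPACT (closed conditions, bounded)                     [`an1_rot_compact`]
* it is invariant under `(g, a) ↦ (exp X · g, exp (ρ X) a)`, `X` real skew            [`RotHW.exp`]
* its second components span `cyc v`                                                  [`an1_cyc_le_span`]
* every `g ∈ SO(2n)` occurs, with `a ∈ cyc v`                                         [`an1_rot_exists`]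
* `ρ(H) a = ρ(X) a + (1/2) tr(H · g H(lam) gᵀ) a`, `X` real skew, for Hermitian `H`   [`an1_rot_decomp`]
* `⟨ρ(X) a, a⟩ = (1/2) tr(X · g H(lam) gᵀ)`                                           [`an1_rot_moment`]
All of this rests on ONE explicit formula, the expansion `an1_expand` of `X ∈ so(2n, ℂ)` in the orthonormal
basis `H_i`, `e_β` for `B(X, Y) = (1/2) tr(X Yᴴ)`.

Notation: `A_X = R.ρ X`, `⟨a, b⟩ = star a ⬝ᵥ b` (conjugate linear in the FIRST variable),
`H_i = Hc (Pi.single i 1)`, `e_β = rootVec β`.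

Files: `Defs` (A), `Exp`, `SO` (E), `Rot` (R), `KN` (K0 = `an1_repOcc_moment`), `Cas` (S: tools), `Occ` (K4 = `an1_moment_repOcc_approx`).
ALL GLUE IS PROVED; what is left are the sorried leaves (each file header lists them).  Statements are FROZEN; helper lemmas: prefix `an1_` + leaf letter.
Normalisations (`an1_expand`, `an1_trace_Hc`, `rootVec_*`) were checked numerically for `n = 1, 2, 3`.
-/

set_option autoImplicit false

namespace Claimed.Agent.R282

open Matrix

variable {n : ℕ}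

/-- real matrices as complex matrices -/
def cM (g : Matrix (Ix n) (Ix n) ℝ) : Matrix (Ix n) (Ix n) ℂ := g.map (fun r => (r : ℂ))

/-- conjugation of a complex matrix by a real matrix: `g X gᵀ` -/
def AdC (g : Matrix (Ix n) (Ix n) ℝ) (X : Matrix (Ix n) (Ix n) ℂ) : Matrix (Ix n) (Ix n) ℂ :=
  cM g * X * (cM g)ᵀ

/-- rotated highest weight vectors -/
structure RotHW {ι : Type} [Fintype ι] [DecidableEq ι] (R : StarRep Ty.D n ι) (lam : Vec n)
    (g : Matrix (Ix n) (Ix n) ℝ) (a : ι → ℂ) : Prop where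
  so : g ∈ Matrix.specialOrthogonalGroup (Ix n) ℝ
  unit : star a ⬝ᵥ a = 1
  wt : ∀ x : Vec n, (R.ρ (AdC g (Hc x))).mulVec a = ((dot lam x : ℝ) : ℂ) • a
  top : ∀ β : RootD n, β.Pos → (R.ρ (AdC g (rootVec β))).mulVec a = 0

/-! ## (A) algebra of `cM`, `AdC`, `InG`   [leaf L-AN1-A1: everything in this section, ~150 lines] -/

theorem an1_cM_one : cM (1 : Matrix (Ix n) (Ix n) ℝ) = 1 := by
  unfold cM
  exact Matrix.map_one _ Complex.ofReal_zero Complex.ofReal_one

theorem an1_cM_mul (g h : Matrix (Ix n) (Ix n) ℝ) : cM (g * h) = cM g * cM h := by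
  unfold cM
  exact Matrix.map_mul (f := Complex.ofRealHom)

theorem an1_cM_add (g h : Matrix (Ix n) (Ix n) ℝ) : cM (g + h) = cM g + cM h := by
  ext p q; simp [cM]

theorem an1_cM_neg (g : Matrix (Ix n) (Ix n) ℝ) : cM (-g) = -cM g := by
  ext p q; simp [cM]

theorem an1_cM_smul (t : ℝ) (g : Matrix (Ix n) (Ix n) ℝ) : cM (t • g) = (t : ℂ) • cM g := by
  ext p q; simp [cM]

theorem an1_cM_transpose (g : Matrix (Ix n) (Ix n) ℝ) : cM gᵀ = (cM g)ᵀ := by
  ext p q; simp [cM]

theorem an1_cM_conjTranspose (g : Matrix (Ix n) (Ix n) ℝ) : (cM g)ᴴ = (cM g)ᵀ := by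
  ext p q; simp [cM]

theorem an1_cM_injective : Function.Injective (cM : Matrix (Ix n) (Ix n) ℝ → _) := by
  intro g h e
  ext p q
  have := congrFun (congrFun e p) q
  simpa [cM] using this

theorem an1_cM_Jmat (x : Vec n) : cM (Jmat x) = JmatC x := rfl

theorem an1_Jmat_transpose (x : Vec n) : (Jmat x)ᵀ = -Jmat x := by
  ext ⟨i, a⟩ ⟨j, b⟩
  simp only [transpose_apply, Jmat, Matrix.neg_apply]
  by_cases h : i = j
  · subst h
    fin_cases a <;> fin_cases b <;> simp
  · have h' : ¬ j = i := fun e => h e.symm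
    simp [h, h']

theorem an1_Hc_sum (x : Vec n) : Hc x = ∑ i, ((x i : ℝ) : ℂ) • Hc (Pi.single i 1) := by
  ext ⟨k, a⟩ ⟨l, b⟩
  simp only [Hc, JmatC, Jmat, Matrix.smul_apply, Matrix.map_apply, Matrix.sum_apply, smul_eq_mul]
  by_cases h : k = l
  · subst h
    rw [Finset.sum_eq_single k]
    · fin_cases a <;> fin_cases b <;> simp <;> ring
    · intro i _ hi
      simp [hi.symm]
    · simp
  · simp [h]

theorem an1_Hc_eq (x : Vec n) : Hc x = Complex.I • cM (Jmat x) := rfl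

theorem an1_Hc_conjTranspose (x : Vec n) : (Hc x)ᴴ = Hc x := by
  rw [an1_Hc_eq, conjTranspose_smul, an1_cM_conjTranspose, ← an1_cM_transpose, an1_Jmat_transpose,
    an1_cM_neg]
  simp

theorem an1_inG_iff (X : Matrix (Ix n) (Ix n) ℂ) : Ty.D.InG X ↔ Xᵀ = -X := by
  unfold Ty.InG
  constructor
  · exact fun h => h.1
  · exact fun h => ⟨h, fun e => by cases e⟩

theorem an1_inG_cM (X : Matrix (Ix n) (Ix n) ℝ) (h : Xᵀ = -X) : Ty.D.InG (cM X) := by
  rw [an1_inG_iff, ← an1_cM_transpose, h, an1_cM_neg]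

theorem an1_inG_add {X Y : Matrix (Ix n) (Ix n) ℂ} (hX : Ty.D.InG X) (hY : Ty.D.InG Y) :
    Ty.D.InG (X + Y) := by
  rw [an1_inG_iff] at *
  rw [transpose_add, hX, hY, neg_add]

theorem an1_inG_smul (c : ℂ) {X : Matrix (Ix n) (Ix n) ℂ} (hX : Ty.D.InG X) : Ty.D.InG (c • X) := by
  rw [an1_inG_iff] at *
  rw [transpose_smul, hX, smul_neg]

theorem an1_inG_Hc (x : Vec n) : Ty.D.InG (Hc x) := by
  rw [an1_Hc_eq]
  exact an1_inG_smul _ (an1_inG_cM _ (an1_Jmat_transpose x))

theorem an1_inG_conjTranspose {X : Matrix (Ix n) (Ix n) ℂ} (hX : Ty.D.InG X) : Ty.D.InG Xᴴ := by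
  rw [an1_inG_iff] at *
  have : Xᴴᵀ = Xᵀᴴ := by ext p q; simp
  rw [this, hX, conjTranspose_neg]

theorem an1_inG_bracket {X Y : Matrix (Ix n) (Ix n) ℂ} (hX : Ty.D.InG X) (hY : Ty.D.InG Y) :
    Ty.D.InG (X * Y - Y * X) := by
  rw [an1_inG_iff] at *
  rw [transpose_sub, transpose_mul, transpose_mul, hX, hY]
  simp

theorem an1_inG_AdC (g : Matrix (Ix n) (Ix n) ℝ) {X : Matrix (Ix n) (Ix n) ℂ} (hX : Ty.D.InG X) :
    Ty.D.InG (AdC g X) := by
  rw [an1_inG_iff] at *
  unfold AdC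
  rw [transpose_mul, transpose_mul, transpose_transpose, hX]
  simp [mul_assoc]

theorem an1_AdC_one (X : Matrix (Ix n) (Ix n) ℂ) : AdC 1 X = X := by
  unfold AdC
  rw [an1_cM_one]; simp

theorem an1_AdC_mul (g h : Matrix (Ix n) (Ix n) ℝ) (X : Matrix (Ix n) (Ix n) ℂ) :
    AdC (g * h) X = AdC g (AdC h X) := by
  unfold AdC
  rw [an1_cM_mul, transpose_mul]
  simp only [mul_assoc]

theorem an1_AdC_add (g : Matrix (Ix n) (Ix n) ℝ) (X Y : Matrix (Ix n) (Ix n) ℂ) :
    AdC g (X + Y) = AdC g X + AdC g Y := by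
  unfold AdC
  rw [mul_add, add_mul]

theorem an1_AdC_smul (g : Matrix (Ix n) (Ix n) ℝ) (c : ℂ) (X : Matrix (Ix n) (Ix n) ℂ) :
    AdC g (c • X) = c • AdC g X := by
  unfold AdC
  rw [mul_smul_comm, smul_mul_assoc]

theorem an1_AdC_sum {κ : Type} (s : Finset κ) (g : Matrix (Ix n) (Ix n) ℝ)
    (X : κ → Matrix (Ix n) (Ix n) ℂ) : AdC g (∑ k ∈ s, X k) = ∑ k ∈ s, AdC g (X k) := by
  unfold AdC
  rw [Finset.mul_sum, Finset.sum_mul]

theorem an1_AdC_conjTranspose (g : Matrix (Ix n) (Ix n) ℝ) (X : Matrix (Ix n) (Ix n) ℂ) :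
    (AdC g X)ᴴ = AdC g Xᴴ := by
  unfold AdC
  rw [conjTranspose_mul, conjTranspose_mul, an1_cM_conjTranspose, ← an1_cM_transpose,
    an1_cM_conjTranspose, ← an1_cM_transpose, transpose_transpose, mul_assoc]

theorem an1_AdC_cM (g X : Matrix (Ix n) (Ix n) ℝ) : AdC g (cM X) = cM (g * X * gᵀ) := by
  unfold AdC
  rw [an1_cM_mul, an1_cM_mul, an1_cM_transpose]

theorem an1_A1_so {g : Matrix (Ix n) (Ix n) ℝ}
    (hg : g ∈ Matrix.specialOrthogonalGroup (Ix n) ℝ) : g * gᵀ = 1 ∧ gᵀ * g = 1 := by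
  rw [Matrix.mem_specialOrthogonalGroup_iff] at hg
  exact ⟨(Matrix.mem_orthogonalGroup_iff (Ix n) ℝ).mp hg.1, (Matrix.mem_orthogonalGroup_iff' (Ix n) ℝ).mp hg.1⟩

theorem an1_A1_soC {g : Matrix (Ix n) (Ix n) ℝ}
    (hg : g ∈ Matrix.specialOrthogonalGroup (Ix n) ℝ) : cM g * (cM g)ᵀ = 1 ∧ (cM g)ᵀ * cM g = 1 := by
  rw [← an1_cM_transpose, ← an1_cM_mul, ← an1_cM_mul, (an1_A1_so hg).1, (an1_A1_so hg).2, an1_cM_one]
  exact ⟨rfl, rfl⟩

theorem an1_AdC_transpose_cancel {g : Matrix (Ix n) (Ix n) ℝ}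
    (hg : g ∈ Matrix.specialOrthogonalGroup (Ix n) ℝ) (X : Matrix (Ix n) (Ix n) ℂ) :
    AdC g (AdC gᵀ X) = X ∧ AdC gᵀ (AdC g X) = X := by
  rw [← an1_AdC_mul, ← an1_AdC_mul, (an1_A1_so hg).1, (an1_A1_so hg).2, an1_AdC_one]
  exact ⟨rfl, rfl⟩

theorem an1_trace_AdC {g : Matrix (Ix n) (Ix n) ℝ}
    (hg : g ∈ Matrix.specialOrthogonalGroup (Ix n) ℝ) (X Y : Matrix (Ix n) (Ix n) ℂ) :
    trace (AdC gᵀ X * Y) = trace (X * AdC g Y) ∧ trace (AdC g X * AdC g Y) = trace (X * Y) := by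
  constructor
  · unfold AdC
    rw [an1_cM_transpose, transpose_transpose, mul_assoc, mul_assoc, trace_mul_comm]
    simp only [mul_assoc]
  · unfold AdC
    have : cM g * X * (cM g)ᵀ * (cM g * Y * (cM g)ᵀ) = cM g * (X * ((cM g)ᵀ * cM g) * Y * (cM g)ᵀ) := by
      simp only [mul_assoc]
    rw [this, (an1_A1_soC hg).2, mul_one, trace_mul_comm, mul_assoc, mul_assoc, (an1_A1_soC hg).2, mul_one]

theorem an1_real_of_skewHerm (X : Matrix (Ix n) (Ix n) ℂ) (h : Ty.D.InG X) (hs : Xᴴ = -X) :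
    ∃ X₀ : Matrix (Ix n) (Ix n) ℝ, X₀ᵀ = -X₀ ∧ X = cM X₀ := by
  rw [an1_inG_iff] at h
  have hre : ∀ p q, (X p q).im = 0 := by
    intro p q
    have h1 := congrFun (congrFun h q) p
    have h2 := congrFun (congrFun hs q) p
    simp only [transpose_apply, conjTranspose_apply, Matrix.neg_apply] at h1 h2
    rw [← h1] at h2
    have := congrArg Complex.im h2
    simp only [Complex.star_def, Complex.conj_im] at this
    linarith
  have e : X = cM (X.map Complex.re) := by
    ext p q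
    simp only [cM, Matrix.map_apply]
    exact Complex.ext (by simp) (by simp [hre p q])
  refine ⟨X.map Complex.re, ?_, e⟩
  apply an1_cM_injective
  rw [an1_cM_transpose, an1_cM_neg, ← e, h]

theorem an1_re_im (Y : Matrix (Ix n) (Ix n) ℂ) (h : Ty.D.InG Y) :
    ∃ X₁ X₂ : Matrix (Ix n) (Ix n) ℝ, X₁ᵀ = -X₁ ∧ X₂ᵀ = -X₂ ∧ Y = cM X₁ + Complex.I • cM X₂ := by
  rw [an1_inG_iff] at h
  refine ⟨Y.map Complex.re, Y.map Complex.im, ?_, ?_, ?_⟩
  · ext p q
    have h1 := congrFun (congrFun h p) q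
    simp only [transpose_apply, Matrix.neg_apply] at h1
    simp [h1]
  · ext p q
    have h1 := congrFun (congrFun h p) q
    simp only [transpose_apply, Matrix.neg_apply] at h1
    simp [h1]
  · ext p q
    simp only [cM, Matrix.add_apply, Matrix.smul_apply, Matrix.map_apply, smul_eq_mul]
    rw [mul_comm]
    exact (Complex.re_add_im _).symm

theorem an1_eq_zero_of_trace {κ : Type} [Fintype κ] (D : Matrix κ κ ℂ) (h : (trace (D * Dᴴ)).re = 0) :
    D = 0 := by
  have e : (trace (D * Dᴴ)).re = ∑ p, ∑ q, Complex.normSq (D p q) := by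
    simp only [trace, diag_apply, mul_apply, conjTranspose_apply, Complex.re_sum]
    refine Finset.sum_congr rfl fun p _ => Finset.sum_congr rfl fun q _ => ?_
    rw [Complex.star_def, Complex.mul_conj]
    simp
  rw [e] at h
  ext p q
  have h1 := (Finset.sum_eq_zero_iff_of_nonneg (fun p _ => Finset.sum_nonneg fun q _ =>
    Complex.normSq_nonneg (D p q))).mp h p (Finset.mem_univ p)
  have h2 := (Finset.sum_eq_zero_iff_of_nonneg (fun q _ => Complex.normSq_nonneg (D p q))).mp h1 q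
    (Finset.mem_univ q)
  simpa using h2

theorem an1_trace_Hc (x y : Vec n) : (1 / 2 : ℂ) * trace (Hc x * Hc y) = ((dot x y : ℝ) : ℂ) := by
  simp only [trace, diag_apply, mul_apply, Hc, JmatC, Jmat, Matrix.smul_apply, Matrix.map_apply,
    smul_eq_mul, Fintype.sum_prod_type, Fin.sum_univ_two, dot]
  push_cast
  rw [Finset.mul_sum]
  refine Finset.sum_congr rfl fun i _ => ?_
  rw [Finset.sum_eq_single i, Finset.sum_eq_single i]
  · simp
    ring_nf
    simp
  · intro j _ hj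
    simp [hj.symm]
  · simp
  · intro j _ hj
    simp [hj.symm]
  · simp

/-! ## the expansion   [leaf L-AN1-A2: `an1_expand`, `an1_rootSum_*`, `an1_parseval`, ~300 lines;  leaf L-AN1-A3: the lemmas on roots at the end of the file] -/

/-- sum over all elements of `RootD n` (every root occurs twice: `(i, j)` and `(j, i)`) -/
noncomputable def rootSum {V : Type} [AddCommMonoid V] (F : RootD n → V) : V :=
  ∑ i : Fin n, ∑ j : Fin n, ∑ si : Bool, ∑ sj : Bool,
    if h : i ≠ j then F ⟨i, j, h, si, sj⟩ else 0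

theorem an1_A2_star_uvec (i : Fin n) (s : Bool) : star (uvec i s) = uvec i (!s) := by
  funext p
  simp only [Pi.star_apply, uvec]
  by_cases h : p.1 = i
  · by_cases h2 : p.2 = 0
    · simp [h, h2]
    · cases s <;> simp [h, h2]
  · simp [h]

/-- completeness -/
theorem an1_A2_complete :
    ∑ i : Fin n, ∑ s : Bool, vecMulVec (uvec i s) (star (uvec i s)) = (2 : ℂ) • (1 : Matrix (Ix n) (Ix n) ℂ) := by
  ext ⟨i, a⟩ ⟨j, b⟩
  simp only [Matrix.sum_apply, Matrix.add_apply, vecMulVec_apply, Fintype.sum_bool, Pi.star_apply, uvec,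
    Matrix.smul_apply, one_apply, Prod.mk.injEq, smul_eq_mul]
  rw [Finset.sum_eq_single i]
  · by_cases h : j = i
    · subst h
      fin_cases a <;> fin_cases b <;> simp <;> norm_num
    · have h' : ¬ i = j := fun e => h e.symm
      simp [h, h']
  · intro k _ hk
    have : ¬ i = k := fun e => hk e.symm
    simp [this]
  · simp

theorem an1_A2_complete' :
    ∑ i : Fin n, ∑ s : Bool, vecMulVec (star (uvec i s)) (uvec i s) = (2 : ℂ) • (1 : Matrix (Ix n) (Ix n) ℂ) := by
  have := congrArg Matrix.transpose (an1_A2_complete (n := n))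
  simp only [transpose_sum, transpose_vecMulVec, transpose_smul, transpose_one] at this
  exact this

/-- the coefficients -/
noncomputable def an1_A2_x (X : Matrix (Ix n) (Ix n) ℂ) (i j : Fin n) (s t : Bool) : ℂ :=
  star (uvec i s) ⬝ᵥ (X *ᵥ star (uvec j t))

theorem an1_A2_x_skew (X : Matrix (Ix n) (Ix n) ℂ) (h : Xᵀ = -X) (i j : Fin n) (s t : Bool) :
    an1_A2_x X j i t s = - an1_A2_x X i j s t := by
  unfold an1_A2_x
  rw [dotProduct_mulVec, ← mulVec_transpose, h, neg_mulVec, neg_dotProduct, dotProduct_comm]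

theorem an1_A2_expand0 (X : Matrix (Ix n) (Ix n) ℂ) :
    X = (1 / 4 : ℂ) • ∑ i : Fin n, ∑ j : Fin n, ∑ s : Bool, ∑ t : Bool,
      an1_A2_x X i j s t • vecMulVec (uvec i s) (uvec j t) := by
  have h1 : (∑ i : Fin n, ∑ s : Bool, vecMulVec (uvec i s) (star (uvec i s))) * X *
      (∑ i : Fin n, ∑ s : Bool, vecMulVec (star (uvec i s)) (uvec i s)) = (4 : ℂ) • X := by
    rw [an1_A2_complete, an1_A2_complete', smul_mul_assoc, one_mul, mul_smul_comm, mul_one, smul_smul]
    norm_num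
  have h2 : X = (1 / 4 : ℂ) • ((4 : ℂ) • X) := by rw [smul_smul]; norm_num
  conv_lhs => rw [h2, ← h1]
  congr 1
  simp_rw [Finset.sum_mul, Finset.mul_sum]
  refine Finset.sum_congr rfl fun i _ => ?_
  rw [Finset.sum_comm]
  refine Finset.sum_congr rfl fun j _ => ?_
  refine Finset.sum_congr rfl fun s _ => ?_
  refine Finset.sum_congr rfl fun t _ => ?_
  rw [vecMulVec_mul, vecMulVec_mul_vecMulVec, vecMulVec_smul, an1_A2_x, dotProduct_mulVec]

/-- `(u_a u_cᵀ - u_c u_aᵀ)/2` -/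
noncomputable def an1_A2_E (i j : Fin n) (s t : Bool) : Matrix (Ix n) (Ix n) ℂ :=
  (1 / 2 : ℂ) • (vecMulVec (uvec i s) (uvec j t) - vecMulVec (uvec j t) (uvec i s))

theorem an1_A2_rootVec (β : RootD n) : rootVec β = an1_A2_E β.i β.j β.si β.sj := rfl

theorem an1_A2_E_swap (i j : Fin n) (s t : Bool) : an1_A2_E j i t s = - an1_A2_E i j s t := by
  unfold an1_A2_E
  rw [← smul_neg, neg_sub]

theorem an1_A2_E_self (i : Fin n) (s : Bool) : an1_A2_E i i s s = 0 := by
  unfold an1_A2_E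
  rw [sub_self, smul_zero]

theorem an1_A2_trace (X : Matrix (Ix n) (Ix n) ℂ) (h : Xᵀ = -X) (i j : Fin n) (s t : Bool) :
    trace (X * (an1_A2_E i j s t)ᴴ) = an1_A2_x X i j s t := by
  have h1 := an1_A2_x_skew X h i j s t
  unfold an1_A2_E
  rw [conjTranspose_smul, conjTranspose_sub, conjTranspose_vecMulVec, conjTranspose_vecMulVec,
    mul_smul_comm, mul_sub, mul_vecMulVec, mul_vecMulVec, trace_smul, trace_sub, trace_vecMulVec,
    trace_vecMulVec, dotProduct_comm, dotProduct_comm (X *ᵥ star (uvec i s))]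
  change star (1 / 2 : ℂ) • (an1_A2_x X i j s t - an1_A2_x X j i t s) = _
  rw [h1]
  simp only [smul_eq_mul, star_div₀, star_one, star_ofNat]
  ring

theorem an1_A2_Hc (i : Fin n) : Hc (Pi.single i 1) = an1_A2_E i i false true := by
  ext ⟨k, a⟩ ⟨l, b⟩
  simp only [Hc, JmatC, Jmat, an1_A2_E, Matrix.smul_apply, Matrix.sub_apply, vecMulVec_apply, uvec,
    Matrix.map_apply, smul_eq_mul]
  by_cases hk : k = i
  · subst hk
    by_cases hl : l = k
    · subst hl
      fin_cases a <;> fin_cases b <;> simp <;> ring_nf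
    · have hl' : ¬ k = l := fun e => hl e.symm
      simp [hl, hl']
  · by_cases hl : k = l
    · subst hl
      simp [hk]
    · simp [hk, hl]

theorem an1_A2_sym (X : Matrix (Ix n) (Ix n) ℂ) (h : Xᵀ = -X) :
    ∑ i : Fin n, ∑ j : Fin n, ∑ s : Bool, ∑ t : Bool,
      an1_A2_x X i j s t • vecMulVec (uvec i s) (uvec j t)
    = ∑ i : Fin n, ∑ j : Fin n, ∑ s : Bool, ∑ t : Bool, an1_A2_x X i j s t • an1_A2_E i j s t := by
  have h1 : ∑ i : Fin n, ∑ j : Fin n, ∑ s : Bool, ∑ t : Bool,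
      an1_A2_x X i j s t • vecMulVec (uvec i s) (uvec j t)
      = ∑ i : Fin n, ∑ j : Fin n, ∑ s : Bool, ∑ t : Bool,
        -(an1_A2_x X i j s t • vecMulVec (uvec j t) (uvec i s)) := by
    rw [Finset.sum_comm]
    refine Finset.sum_congr rfl fun i _ => Finset.sum_congr rfl fun j _ => ?_
    rw [Finset.sum_comm]
    refine Finset.sum_congr rfl fun s _ => Finset.sum_congr rfl fun t _ => ?_
    rw [an1_A2_x_skew X h i j s t, neg_smul]
  have h2 : ∀ A B : Matrix (Ix n) (Ix n) ℂ, A = B → A = (1 / 2 : ℂ) • (A + B) := by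
    rintro A _ rfl
    rw [← two_smul ℂ A, smul_smul]; norm_num
  rw [h2 _ _ h1]
  simp_rw [← Finset.sum_add_distrib, Finset.smul_sum]
  refine Finset.sum_congr rfl fun i _ => Finset.sum_congr rfl fun j _ =>
    Finset.sum_congr rfl fun s _ => Finset.sum_congr rfl fun t _ => ?_
  unfold an1_A2_E
  rw [← sub_eq_add_neg, ← smul_sub, smul_comm]

/-- **EXPAND**: `H_i`, `e_β` is an orthonormal basis of `so(2n, ℂ)` for `(1/2) tr (X Yᴴ)`.
Proof: with `u_a = uvec i s`, `a = (i, s)`: `∑_a u_a u_aᴴ = 2`, `conj u_(i,s) = u_(i,!s)`, so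
`X = (1/4) ∑_{a,c} x_ac u_a u_cᵀ`, `x_ac = u_aᴴ X conj(u_c)`, skew in `(a, c)`;
`tr (X e_βᴴ) = x_ac` for `β = (a, c)`; `u_(i,+) u_(i,-)ᵀ - u_(i,-) u_(i,+)ᵀ = 2 H_i`, `tr (X H_i) = x_(i+)(i-)`.
(Or entrywise: `ext ⟨i, a⟩ ⟨j, b⟩`, cases `i = j`.) -/
theorem an1_expand (X : Matrix (Ix n) (Ix n) ℂ) (h : Ty.D.InG X) :
    X = ∑ i : Fin n, ((1 / 2 : ℂ) * trace (X * Hc (Pi.single i 1))) • Hc (Pi.single i 1)
      + (1 / 2 : ℂ) • rootSum fun β => ((1 / 2 : ℂ) * trace (X * (rootVec β)ᴴ)) • rootVec β := by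
  have hX : Xᵀ = -X := h.1
  conv_lhs => rw [an1_A2_expand0 X, an1_A2_sym X hX]
  unfold rootSum
  rw [Finset.smul_sum, Finset.smul_sum, ← Finset.sum_add_distrib]
  refine Finset.sum_congr rfl fun i _ => ?_
  rw [← Finset.add_sum_erase _ _ (Finset.mem_univ i), ← Finset.add_sum_erase _ _ (Finset.mem_univ i),
    smul_add, smul_add]
  have hH : trace (X * Hc (Pi.single i 1)) = an1_A2_x X i i false true := by
    rw [← an1_A2_trace X hX, ← an1_A2_Hc, an1_Hc_conjTranspose]
  have h0 : (∑ si : Bool, ∑ sj : Bool, if h : i ≠ i then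
      (fun β => ((1 / 2 : ℂ) * (X * (rootVec β)ᴴ).trace) • rootVec β)
        { i := i, j := i, ne := h, si := si, sj := sj } else 0) = 0 := by
    simp
  rw [h0, smul_zero, zero_add]
  congr 1
  · simp only [Fintype.sum_bool, an1_A2_E_self, smul_zero, add_zero, zero_add]
    rw [hH, an1_A2_Hc, an1_A2_x_skew X hX i i false true, an1_A2_E_swap i i false true, neg_smul,
      smul_neg, neg_neg, ← two_smul ℂ, smul_smul, smul_smul]
    congr 1
    ring
  · rw [Finset.smul_sum, Finset.smul_sum]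
    refine Finset.sum_congr rfl fun j hj => ?_
    have hij : i ≠ j := fun e => (Finset.mem_erase.mp hj).1 e.symm
    simp only [dif_pos hij]
    rw [Finset.smul_sum, Finset.smul_sum]
    refine Finset.sum_congr rfl fun s _ => ?_
    rw [Finset.smul_sum, Finset.smul_sum]
    refine Finset.sum_congr rfl fun t _ => ?_
    rw [an1_A2_rootVec, an1_A2_trace X hX, smul_smul, smul_smul]
    congr 1
    ring

theorem an1_rootSum_map {V W : Type} [AddCommMonoid V] [AddCommMonoid W] (f : V →+ W) (F : RootD n → V) :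
    f (rootSum F) = rootSum fun β => f (F β) := by
  unfold rootSum
  simp only [map_sum]
  refine Finset.sum_congr rfl fun i _ => Finset.sum_congr rfl fun j _ =>
    Finset.sum_congr rfl fun s _ => Finset.sum_congr rfl fun t _ => ?_
  by_cases h : i ≠ j
  · simp only [dif_pos h]
  · simp only [dif_neg h, map_zero]

theorem an1_rootSum_add {V : Type} [AddCommMonoid V] (F G : RootD n → V) :
    rootSum (fun β => F β + G β) = rootSum F + rootSum G := by
  unfold rootSum
  simp only [← Finset.sum_add_distrib]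
  refine Finset.sum_congr rfl fun i _ => Finset.sum_congr rfl fun j _ =>
    Finset.sum_congr rfl fun s _ => Finset.sum_congr rfl fun t _ => ?_
  by_cases h : i ≠ j
  · simp only [dif_pos h]
  · simp only [dif_neg h, add_zero]

theorem an1_rootSum_zero {V : Type} [AddCommMonoid V] : rootSum (fun _ : RootD n => (0 : V)) = 0 := by
  unfold rootSum
  simp

theorem an1_A2_half (M₁ M₂ : Matrix (Ix n) (Ix n) ℂ) (h₁ : Ty.D.InG M₁) :
    trace (M₁ * M₂) = 2 * ∑ i : Fin n, ((1 / 2 : ℂ) * trace (Hc (Pi.single i 1) * M₁)) *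
        ((1 / 2 : ℂ) * trace (Hc (Pi.single i 1) * M₂))
      + rootSum fun β =>
        ((1 / 2 : ℂ) * trace ((rootVec β)ᴴ * M₁)) * ((1 / 2 : ℂ) * trace (rootVec β * M₂)) := by
  conv_lhs => rw [an1_expand M₁ h₁]
  rw [add_mul, trace_add, Finset.sum_mul, trace_sum, smul_mul_assoc, trace_smul, Finset.mul_sum]
  congr 1
  · refine Finset.sum_congr rfl fun i _ => ?_
    rw [smul_mul_assoc, trace_smul, trace_mul_comm M₁, smul_eq_mul]
    ring
  · have := an1_rootSum_map ((Matrix.traceAddMonoidHom (Ix n) ℂ).comp (AddMonoidHom.mulRight M₂))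
      (fun β => ((1 / 2 : ℂ) * trace (M₁ * (rootVec β)ᴴ)) • rootVec β)
    simp only [AddMonoidHom.comp_apply, AddMonoidHom.mulRight_apply, traceAddMonoidHom_apply] at this
    rw [this, smul_eq_mul]
    have h2 := an1_rootSum_map (AddMonoidHom.mulLeft (1 / 2 : ℂ))
      (fun β : RootD n => trace ((((1 / 2 : ℂ) * trace (M₁ * (rootVec β)ᴴ)) • rootVec β) * M₂))
    simp only [AddMonoidHom.coe_mulLeft] at h2
    rw [h2]
    refine congrArg rootSum (funext fun β => ?_)
    rw [smul_mul_assoc, trace_smul, trace_mul_comm M₁, smul_eq_mul]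
    ring

/-- **Parseval** (apply `Y ↦ tr (Y * M₂)` to `an1_expand M₁`, `Y ↦ tr (Y * M₁)` to `an1_expand M₂`, add; `trace_mul_comm`) -/
theorem an1_parseval (M₁ M₂ : Matrix (Ix n) (Ix n) ℂ) (h₁ : Ty.D.InG M₁) (h₂ : Ty.D.InG M₂) :
    trace (M₁ * M₂) = 2 * ∑ i : Fin n, ((1 / 2 : ℂ) * trace (Hc (Pi.single i 1) * M₁)) *
        ((1 / 2 : ℂ) * trace (Hc (Pi.single i 1) * M₂))
      + (1 / 2 : ℂ) * rootSum fun β =>
        ((1 / 2 : ℂ) * trace (rootVec β * M₁)) * ((1 / 2 : ℂ) * trace ((rootVec β)ᴴ * M₂))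
        + ((1 / 2 : ℂ) * trace ((rootVec β)ᴴ * M₁)) * ((1 / 2 : ℂ) * trace (rootVec β * M₂)) := by
  have p1 := an1_A2_half M₁ M₂ h₁
  have p2 := an1_A2_half M₂ M₁ h₂
  rw [trace_mul_comm M₂ M₁] at p2
  have e1 : ∑ i : Fin n, ((1 / 2 : ℂ) * trace (Hc (Pi.single i 1) * M₂)) *
        ((1 / 2 : ℂ) * trace (Hc (Pi.single i 1) * M₁)) = ∑ i : Fin n, ((1 / 2 : ℂ) * trace (Hc (Pi.single i 1) * M₁)) *
        ((1 / 2 : ℂ) * trace (Hc (Pi.single i 1) * M₂)) :=
    Finset.sum_congr rfl fun i _ => mul_comm _ _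
  have e2 : (rootSum fun β : RootD n =>
        ((1 / 2 : ℂ) * trace ((rootVec β)ᴴ * M₂)) * ((1 / 2 : ℂ) * trace (rootVec β * M₁)))
      = rootSum fun β : RootD n =>
        ((1 / 2 : ℂ) * trace (rootVec β * M₁)) * ((1 / 2 : ℂ) * trace ((rootVec β)ᴴ * M₂)) :=
    congrArg rootSum (funext fun β => mul_comm _ _)
  rw [e1, e2] at p2
  rw [an1_rootSum_add]
  linear_combination (1 / 2 : ℂ) * p1 + (1 / 2 : ℂ) * p2

theorem an1_A3_dot_vec (β : RootD n) (x : Vec n) :
    dot β.vec x = sgnB β.si * x β.i + sgnB β.sj * x β.j := by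
  unfold dot RootD.vec
  simp only [add_mul, ite_mul, zero_mul, Finset.sum_add_distrib, Finset.sum_ite_eq',
    Finset.mem_univ, if_true]

theorem an1_A3_rho_lt {i j : Fin n} (h : i < j) : 0 ≤ rhoV n j ∧ rhoV n j < rhoV n i := by
  have h1 : ((i : ℕ) : ℝ) + 1 ≤ ((j : ℕ) : ℝ) := by exact_mod_cast h
  have h2 : ((j : ℕ) : ℝ) + 1 ≤ (n : ℝ) := by exact_mod_cast j.2
  unfold rhoV
  constructor <;> linarith

/-- the sign of a root is the sign of its leading coordinate -/
theorem an1_A3_pos_iff (β : RootD n) :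
    β.Pos ↔ (if β.i < β.j then β.si else β.sj) = false := by
  unfold RootD.Pos
  rw [an1_A3_dot_vec]
  rcases lt_or_gt_of_ne β.ne with h | h
  · obtain ⟨h1, h2⟩ := an1_A3_rho_lt h
    rw [if_pos h]
    rcases β.si with _ | _ <;> rcases β.sj with _ | _ <;> simp [sgnB] <;> linarith
  · obtain ⟨h1, h2⟩ := an1_A3_rho_lt h
    rw [if_neg (not_lt.2 h.le)]
    rcases β.si with _ | _ <;> rcases β.sj with _ | _ <;> simp [sgnB] <;> linarith

/-- every root is positive or negative -/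
theorem an1_pos_or_neg (β : RootD n) : β.Pos ∨ β.neg.Pos := by
  rw [an1_A3_pos_iff, an1_A3_pos_iff]
  obtain ⟨i, j, hne, si, sj⟩ := β
  simp only [RootD.neg]
  by_cases h : i < j
  · cases si <;> simp [h]
  · cases sj <;> simp [h]

theorem an1_not_pos_neg (β : RootD n) (h : β.Pos) : ¬ β.neg.Pos := by
  rw [an1_A3_pos_iff] at h ⊢
  obtain ⟨i, j, hne, si, sj⟩ := β
  simp only [RootD.neg] at h ⊢
  by_cases h' : i < j
  · simp only [h', if_true] at h ⊢
    simp [h]
  · simp only [h', if_false] at h ⊢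
    simp [h]

theorem an1_neg_neg (β : RootD n) : β.neg.neg = β := by
  cases β
  simp [RootD.neg]

theorem an1_neg_vec (β : RootD n) : β.neg.vec = -β.vec := by
  funext k
  simp only [RootD.vec, RootD.neg, Pi.neg_apply, neg_add]
  congr 1
  · by_cases h : k = β.i
    · cases β.si <;> simp [sgnB, h]
    · simp [h]
  · by_cases h : k = β.j
    · cases β.sj <;> simp [sgnB, h]
    · simp [h]

/-- positive roots pair non-negatively with dominant vectors -/
theorem an1_pos_dom (β : RootD n) (hβ : β.Pos) (x : Vec n) (hx : Ty.D.Dom x) : 0 ≤ dot β.vec x := by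
  rw [an1_A3_pos_iff] at hβ
  rw [an1_A3_dot_vec]
  rcases lt_or_gt_of_ne β.ne with h | h
  · have h1 := hx _ _ h
    rw [abs_le] at h1
    rw [if_pos h] at hβ
    rw [hβ]
    rcases β.sj with _ | _ <;> simp [sgnB] <;> linarith
  · have h1 := hx _ _ h
    rw [abs_le] at h1
    rw [if_neg (not_lt.2 h.le)] at hβ
    rw [hβ]
    rcases β.si with _ | _ <;> simp [sgnB] <;> linarith

/-- conversely -/
theorem an1_dom_of_pos (x : Vec n) (h : ∀ β : RootD n, β.Pos → 0 ≤ dot β.vec x) : Ty.D.Dom x := by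
  intro i j hij
  have h1 := h ⟨i, j, hij.ne, false, true⟩ (by rw [an1_A3_pos_iff]; simp [hij])
  have h2 := h ⟨i, j, hij.ne, false, false⟩ (by rw [an1_A3_pos_iff]; simp [hij])
  rw [an1_A3_dot_vec] at h1 h2
  simp [sgnB] at h1 h2
  rw [abs_le]
  constructor <;> linarith

/-- `⟨x, ρ⟩ ≥ 0` for dominant `x` -/
theorem an1_dot_rho_nonneg (x : Vec n) (hx : Ty.D.Dom x) : 0 ≤ dot x (rhoV n) := by
  unfold dot
  refine Finset.sum_nonneg fun i _ => ?_
  by_cases hi : ∃ j, i < j
  · obtain ⟨j, hj⟩ := hi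
    have h1 : 0 ≤ x i := (abs_nonneg _).trans (hx i j hj)
    have h2 := an1_A3_rho_lt hj
    exact mul_nonneg h1 (by linarith)
  · push Not at hi
    have : rhoV n i = 0 := by
      have h1 : (i : ℕ) + 1 = n := by
        by_contra hcon
        have h2 := i.2
        have := hi ⟨i + 1, by omega⟩
        rw [Fin.le_def] at this
        simp at this
      unfold rhoV
      have : ((i : ℕ) : ℝ) + 1 = n := by exact_mod_cast h1
      linarith
    rw [this, mul_zero]

end Claimed.Agent.R282
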