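import Claimed.Agent.R282.S2AB.AN1.Defs

/-!
# Row 282, package AN1, block (E): the matrix exponential

All statements are about `NormedSpace.exp` of matrices (no norm on matrices appears in a STATEMENT; inside the proofs use
`open scoped Matrix.Norms.Operator`, then `NormedSpace.hasDerivAt_exp_smul_const`, `NormedSpace.exp_series_hasSum_exp'` are available;
`Matrix.exp_transpose`, `Matrix.exp_conjTranspose`, `Matrix.exp_neg`, `Matrix.exp_add_of_commute` need no norm).
Templates for E4, E5, E6 (for continuous linear maps): `R301/Sl2/FdExp.lean` (`fdx_hasSum_apply`, `mem_of_exp_mem`, `exp_mem_of_invariant`).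

Leaves: L-AN1-E1 (`an1_exp_mem_so`, `an1_exp_unitary`, `an1_exp_inner`, `an1_exp_neg_mul`, `an1_cM_exp`),
L-AN1-E2 (`an1_exp_mem_submodule`, `an1_hasDerivAt_exp_mulVec`, `an1_deriv_mem`), L-AN1-E3 (`an1_exp_conj_rep`).
-/

set_option autoImplicit false

namespace Claimed.Agent.R282

open Matrix NormedSpace

variable {n : ℕ} {ι : Type} [Fintype ι] [DecidableEq ι]

/-! ## L-AN1-E1 -/

theorem an1_exp_neg_mul {κ 𝕜 : Type} [Fintype κ] [DecidableEq κ] [RCLike 𝕜] (A : Matrix κ κ 𝕜) :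
    exp (-A) * exp A = 1 ∧ exp A * exp (-A) = 1 := by
  let _ : NormedAlgebra ℚ 𝕜 := NormedAlgebra.restrictScalars ℚ ℝ 𝕜
  constructor
  · rw [← Matrix.exp_add_of_commute _ _ (Commute.neg_left (Commute.refl A)), neg_add_cancel, exp_zero]
  · rw [← Matrix.exp_add_of_commute _ _ (Commute.neg_right (Commute.refl A)), add_neg_cancel, exp_zero]

theorem an1_exp_mem_so {κ : Type} [Fintype κ] [DecidableEq κ] (X : Matrix κ κ ℝ) (h : Xᵀ = -X) :
    exp X ∈ Matrix.specialOrthogonalGroup κ ℝ := by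
  have horth : ∀ Y : Matrix κ κ ℝ, Yᵀ = -Y → exp Y * (exp Y)ᵀ = 1 := by
    intro Y hY
    rw [← Matrix.exp_transpose, hY]
    exact (an1_exp_neg_mul Y).2
  rw [Matrix.mem_specialOrthogonalGroup_iff, Matrix.mem_orthogonalGroup_iff]
  refine ⟨horth X h, ?_⟩
  have h1 : (exp X).det * (exp X).det = 1 := by
    have := congrArg Matrix.det (horth X h)
    rwa [Matrix.det_mul, Matrix.det_transpose, Matrix.det_one] at this
  have h2 : exp X = exp ((1 / 2 : ℝ) • X) * exp ((1 / 2 : ℝ) • X) := by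
    rw [← Matrix.exp_add_of_commute _ _ (Commute.refl _), ← add_smul]
    norm_num
  have h3 : 0 ≤ (exp X).det := by
    rw [h2, Matrix.det_mul]
    exact mul_self_nonneg _
  nlinarith

theorem an1_exp_unitary (A : Matrix ι ι ℂ) (h : Aᴴ = -A) : (exp A)ᴴ * exp A = 1 := by
  rw [← Matrix.exp_conjTranspose, h]
  exact (an1_exp_neg_mul A).1

theorem an1_exp_inner (A : Matrix ι ι ℂ) (h : Aᴴ = -A) (a b : ι → ℂ) :
    star ((exp A).mulVec a) ⬝ᵥ (exp A).mulVec b = star a ⬝ᵥ b := by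
  rw [Matrix.star_mulVec, Matrix.dotProduct_mulVec, Matrix.vecMul_vecMul, an1_exp_unitary A h,
    Matrix.vecMul_one]

set_option backward.isDefEq.respectTransparency false in
open scoped Matrix.Norms.Operator in
theorem an1_cM_exp (X : Matrix (Ix n) (Ix n) ℝ) : cM (exp X) = exp (cM X) := by
  have hc : Continuous (Complex.ofRealHom.mapMatrix :
      Matrix (Ix n) (Ix n) ℝ →+* Matrix (Ix n) (Ix n) ℂ) :=
    Continuous.matrix_map continuous_id Complex.continuous_ofReal
  exact NormedSpace.map_exp (Complex.ofRealHom.mapMatrix :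
    Matrix (Ix n) (Ix n) ℝ →+* Matrix (Ix n) (Ix n) ℂ) hc X

/-! ## L-AN1-E2 -/

/-- the matrices which stabilise a subspace -/
def an1E_stab (S : Submodule ℂ (ι → ℂ)) : Subalgebra ℂ (Matrix ι ι ℂ) where
  carrier := {B | ∀ a ∈ S, B.mulVec a ∈ S}
  mul_mem' := by
    intro B C hB hC a ha
    rw [← Matrix.mulVec_mulVec]
    exact hB _ (hC a ha)
  add_mem' := by
    intro B C hB hC a ha
    rw [Matrix.add_mulVec]
    exact S.add_mem (hB a ha) (hC a ha)
  algebraMap_mem' := by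
    intro r a ha
    rw [Algebra.algebraMap_eq_smul_one, Matrix.smul_mulVec, Matrix.one_mulVec]
    exact S.smul_mem r ha

theorem an1_exp_mem_submodule (S : Submodule ℂ (ι → ℂ)) (A : Matrix ι ι ℂ)
    (h : ∀ a ∈ S, A.mulVec a ∈ S) : ∀ a ∈ S, (exp A).mulVec a ∈ S := by
  have hcl : IsClosed ((an1E_stab S : Subalgebra ℂ (Matrix ι ι ℂ)) : Set (Matrix ι ι ℂ)) :=
    Submodule.closed_of_finiteDimensional (Subalgebra.toSubmodule (an1E_stab S))
  have hA : A ∈ an1E_stab S := h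
  exact NormedSpace.exp_mem (R := ℂ) hcl hA

set_option backward.isDefEq.respectTransparency false in
open scoped Matrix.Norms.Operator in
theorem an1E_hasDerivAt_exp {κ 𝕜 : Type} [Fintype κ] [DecidableEq κ] [RCLike 𝕜] (A : Matrix κ κ 𝕜)
    (t : ℝ) : HasDerivAt (fun u : ℝ => exp (u • A)) (exp (t • A) * A) t ∧
      HasDerivAt (fun u : ℝ => exp (u • A)) (A * exp (t • A)) t :=
  ⟨hasDerivAt_exp_smul_const A t, hasDerivAt_exp_smul_const' A t⟩

set_option backward.isDefEq.respectTransparency false in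
open scoped Matrix.Norms.Operator in
theorem an1_hasDerivAt_exp_mulVec (A : Matrix ι ι ℂ) (a : ι → ℂ) :
    HasDerivAt (fun t : ℝ => (exp (t • A)).mulVec a) (A.mulVec a) 0 := by
  have h := (an1E_hasDerivAt_exp A 0).1
  rw [zero_smul, exp_zero, one_mul] at h
  let L : Matrix ι ι ℂ →ₗ[ℝ] (ι → ℂ) :=
    ((LinearMap.applyₗ a).comp (Matrix.toLin' : Matrix ι ι ℂ ≃ₗ[ℂ] _).toLinearMap).restrictScalars ℝ
  have h2 := (LinearMap.toContinuousLinearMap L).hasFDerivAt.comp_hasDerivAt (0 : ℝ) h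
  exact h2

set_option backward.isDefEq.respectTransparency false in
open scoped Matrix.Norms.Operator in
theorem an1_hasDerivAt_trace_exp {κ : Type} [Fintype κ] [DecidableEq κ] (X s : Matrix κ κ ℝ) :
    HasDerivAt (fun t : ℝ => trace (exp (t • X) * s)) (trace (X * s)) 0 := by
  have h := (an1E_hasDerivAt_exp X 0).1
  rw [zero_smul, exp_zero, one_mul] at h
  let L : Matrix κ κ ℝ →ₗ[ℝ] ℝ := (Matrix.traceLinearMap κ ℝ ℝ).comp (LinearMap.mulRight ℝ s)
  have h2 := (LinearMap.toContinuousLinearMap L).hasFDerivAt.comp_hasDerivAt (0 : ℝ) h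
  exact h2

theorem an1_deriv_mem (S : Submodule ℂ (ι → ℂ)) (f : ℝ → ι → ℂ) (f' : ι → ℂ) (hf : ∀ t, f t ∈ S)
    (h : HasDerivAt f f' 0) : f' ∈ S := by
  have h1 : deriv f 0 ∈ closure (Submodule.span ℝ (f '' Set.univ) : Set (ι → ℂ)) :=
    range_deriv_subset_closure_span_image f dense_univ ⟨0, rfl⟩
  rw [h.deriv] at h1
  have h2 : (Submodule.span ℝ (f '' Set.univ) : Set (ι → ℂ)) ⊆ (S.restrictScalars ℝ : Submodule ℝ (ι → ℂ)) := by
    have : Submodule.span ℝ (f '' Set.univ) ≤ S.restrictScalars ℝ :=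
      Submodule.span_le.2 (by rintro _ ⟨t, -, rfl⟩; exact hf t)
    exact this
  have h3 : IsClosed ((S.restrictScalars ℝ : Submodule ℝ (ι → ℂ)) : Set (ι → ℂ)) :=
    Submodule.closed_of_finiteDimensional _
  exact closure_minimal h2 h3 h1

/-! ## L-AN1-E3 -/

/-- the curve `exp (t X) Y exp (-t X)` stays in `so(2n, ℂ)` -/
theorem an1E_inG_curve (Xc Y : Matrix (Ix n) (Ix n) ℂ) (hX : Xcᵀ = -Xc) (hY : Ty.D.InG Y) (t : ℝ) :
    Ty.D.InG (exp (t • Xc) * Y * exp (t • (-Xc))) := by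
  rw [an1_inG_iff] at hY ⊢
  rw [Matrix.transpose_mul, Matrix.transpose_mul, ← Matrix.exp_transpose, ← Matrix.exp_transpose,
    Matrix.transpose_smul, Matrix.transpose_smul, Matrix.transpose_neg, hX, hY, neg_neg]
  simp [Matrix.mul_assoc]

set_option backward.isDefEq.respectTransparency false in
open scoped Matrix.Norms.Operator in
theorem an1_exp_conj_rep (R : StarRep Ty.D n ι) (X : Matrix (Ix n) (Ix n) ℝ) (hX : Xᵀ = -X)
    (Y : Matrix (Ix n) (Ix n) ℂ) (hY : Ty.D.InG Y) :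
    R.ρ (AdC (exp X) Y) = exp (R.ρ (cM X)) * R.ρ Y * exp (-(R.ρ (cM X))) := by
  set Xc := cM X with hXc
  set A := R.ρ Xc with hA
  have hXcT : Xcᵀ = -Xc := by rw [hXc, ← an1_cM_transpose, hX, an1_cM_neg]
  have hXG : Ty.D.InG Xc := an1_inG_cM X hX
  -- the curve
  let G : ℝ → Matrix (Ix n) (Ix n) ℂ := fun t => exp (t • Xc) * Y * exp (t • (-Xc))
  have hG : ∀ t, Ty.D.InG (G t) := an1E_inG_curve Xc Y hXcT hY
  have hGd : ∀ t, HasDerivAt G (Xc * G t - G t * Xc) t := by
    intro t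
    have h1 := (an1E_hasDerivAt_exp Xc t).2
    have h2 := (an1E_hasDerivAt_exp (-Xc) t).1
    have h3 := (h1.mul_const Y).mul h2
    refine h3.congr_deriv ?_
    simp only [G, Matrix.mul_assoc, Matrix.mul_neg, sub_eq_add_neg]
  let L : Matrix (Ix n) (Ix n) ℂ →L[ℝ] Matrix ι ι ℂ :=
    LinearMap.toContinuousLinearMap (R.ρ.restrictScalars ℝ)
  have hρd : ∀ t, HasDerivAt (fun t => R.ρ (G t)) (A * R.ρ (G t) - R.ρ (G t) * A) t := by
    intro t
    have h1 := L.hasFDerivAt.comp_hasDerivAt t (hGd t)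
    have e : L (Xc * G t - G t * Xc) = A * R.ρ (G t) - R.ρ (G t) * A := R.bracket Xc (G t) hXG (hG t)
    rw [e] at h1
    exact h1
  let F : ℝ → Matrix ι ι ℂ := fun t => exp (t • (-A)) * R.ρ (G t) * exp (t • A)
  have hFd : ∀ t, HasDerivAt F 0 t := by
    intro t
    have h1 := (an1E_hasDerivAt_exp (-A) t).1
    have h2 := (an1E_hasDerivAt_exp A t).2
    have h3 := (h1.mul (hρd t)).mul h2
    refine h3.congr_deriv ?_
    simp only [Pi.mul_apply]
    noncomm_ring
  have hconst : F 1 = F 0 := by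
    refine is_const_of_deriv_eq_zero (fun t => (hFd t).differentiableAt) (fun t => (hFd t).deriv) 1 0
  have hF0 : F 0 = R.ρ Y := by
    simp [F, G]
  have hF1 : F 1 = exp (-A) * R.ρ (AdC (exp X) Y) * exp A := by
    have e : AdC (exp X) Y = G 1 := by
      simp only [AdC, G, one_smul]
      rw [an1_cM_exp, ← Matrix.exp_transpose, ← hXc, hXcT]
    simp only [F, one_smul, e]
  rw [hF1, hF0] at hconst
  have e1 := (an1_exp_neg_mul A).2
  have e2 := (an1_exp_neg_mul A).2
  calc R.ρ (AdC (exp X) Y)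
      = (exp A * exp (-A)) * R.ρ (AdC (exp X) Y) * (exp A * exp (-A)) := by rw [e1]; simp
    _ = exp A * (exp (-A) * R.ρ (AdC (exp X) Y) * exp A) * exp (-A) := by
        simp only [Matrix.mul_assoc]
    _ = _ := by rw [hconst]

end Claimed.Agent.R282
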