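import Claimed.Agent.R282.S2AB.AN1.SO

/-!
# Row 282, package AN1, block (R): rotated highest weight vectors

Leaves: L-AN1-R1 (`an1_adj`, `an1_rho_skew`, `an1_rho_real_smul`, `an1_rot_of_isHW`), L-AN1-R2 (`an1_rot_compact`), L-AN1-R3 (`an1_rot_split`).
Everything else in this file is proved glue.
-/

set_option autoImplicit false

namespace Claimed.Agent.R282

open Matrix NormedSpace

variable {n : ℕ} {ι : Type} [Fintype ι] [DecidableEq ι]

/-! ## the cyclic module -/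

theorem an1_mem_cyc (R : StarRep Ty.D n ι) (v : ι → ℂ) : v ∈ R.cyc v := by
  unfold StarRep.cyc
  rw [Submodule.mem_sInf]
  intro S hS
  exact hS.1

theorem an1_cyc_inv (R : StarRep Ty.D n ι) (v : ι → ℂ) (X : Matrix (Ix n) (Ix n) ℂ) (hX : Ty.D.InG X)
    (a : ι → ℂ) (ha : a ∈ R.cyc v) : (R.ρ X).mulVec a ∈ R.cyc v := by
  unfold StarRep.cyc at *
  rw [Submodule.mem_sInf] at *
  intro S hS
  exact hS.2 X hX a (ha S hS)

theorem an1_cyc_le (R : StarRep Ty.D n ι) (v : ι → ℂ) (S : Submodule ℂ (ι → ℂ)) (hv : v ∈ S)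
    (hS : ∀ X, Ty.D.InG X → ∀ a ∈ S, (R.ρ X).mulVec a ∈ S) : R.cyc v ≤ S :=
  sInf_le ⟨hv, hS⟩

/-! ## L-AN1-R1 -/

theorem an1_adj (M : Matrix ι ι ℂ) (a b : ι → ℂ) :
    star a ⬝ᵥ M.mulVec b = star (Mᴴ.mulVec a) ⬝ᵥ b := by
  rw [Matrix.star_mulVec, Matrix.conjTranspose_conjTranspose, Matrix.dotProduct_mulVec]

theorem an1_rho_skew (R : StarRep Ty.D n ι) (X : Matrix (Ix n) (Ix n) ℝ) (hX : Xᵀ = -X) :
    (R.ρ (cM X))ᴴ = -R.ρ (cM X) := by
  rw [← R.star _ (an1_inG_cM X hX), an1_cM_conjTranspose, ← an1_cM_transpose, hX, an1_cM_neg, map_neg]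

theorem an1_rho_real_smul (R : StarRep Ty.D n ι) (t : ℝ) (X : Matrix (Ix n) (Ix n) ℝ) :
    R.ρ (cM (t • X)) = t • R.ρ (cM X) := by
  rw [an1_cM_smul, map_smul]
  ext i j
  simp

theorem an1R_star_dot (v : ι → ℂ) : star v ⬝ᵥ v = ((∑ i, ‖v i‖ ^ 2 : ℝ) : ℂ) := by
  simp only [dotProduct, Pi.star_apply, RCLike.star_def, Complex.conj_mul']
  push_cast
  rfl

/-- a normalised highest weight vector is a rotated highest weight vector for `g = 1` (`c = 1 / |v|`; `isRootVec_rootVec`) -/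
theorem an1_rot_of_isHW (R : StarRep Ty.D n ι) (v : ι → ℂ) (lam : Vec n) (h : IsHW R v lam) :
    ∃ c : ℂ, c ≠ 0 ∧ RotHW R lam 1 (c • v) := by
  set N : ℝ := ∑ i, ‖v i‖ ^ 2 with hN
  have hNpos : 0 < N := by
    obtain ⟨i, hi⟩ : ∃ i, v i ≠ 0 := by
      by_contra hcon
      push Not at hcon
      exact h.ne (funext hcon)
    have h1 : 0 < ‖v i‖ ^ 2 := by positivity
    exact lt_of_lt_of_le h1 (Finset.single_le_sum (f := fun i => ‖v i‖ ^ 2)
      (fun j _ => by positivity) (Finset.mem_univ i))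
  have hs : 0 < Real.sqrt N := Real.sqrt_pos.2 hNpos
  refine ⟨(((Real.sqrt N)⁻¹ : ℝ) : ℂ), by exact_mod_cast (inv_pos.2 hs).ne', ?_⟩
  refine ⟨one_mem _, ?_, ?_, ?_⟩
  · rw [star_smul, smul_dotProduct, dotProduct_smul, an1R_star_dot, ← hN]
    simp only [RCLike.star_def, Complex.conj_ofReal, smul_eq_mul]
    rw [← Complex.ofReal_mul, ← Complex.ofReal_mul]
    have : (Real.sqrt N)⁻¹ * ((Real.sqrt N)⁻¹ * N) = 1 := by
      have h2 : Real.sqrt N * Real.sqrt N = N := Real.mul_self_sqrt hNpos.le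
      field_simp
      nlinarith
    rw [this]
    simp
  · intro x
    rw [an1_AdC_one, mulVec_smul, h.wt x, smul_comm]
  · intro β hβ
    rw [an1_AdC_one, mulVec_smul, h.top β _ hβ (isRootVec_rootVec β), smul_zero]

/-! ## L-AN1-R2 -/

theorem an1R_cont_AdC (X : Matrix (Ix n) (Ix n) ℂ) :
    Continuous (fun g : Matrix (Ix n) (Ix n) ℝ => AdC g X) := by
  unfold AdC cM
  have h1 : Continuous (fun g : Matrix (Ix n) (Ix n) ℝ => g.map (fun r => (r : ℂ))) :=
    continuous_id.matrix_map Complex.continuous_ofReal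
  exact (h1.matrix_mul continuous_const).matrix_mul h1.matrix_transpose

theorem an1R_cont_act (R : StarRep Ty.D n ι) (X : Matrix (Ix n) (Ix n) ℂ) :
    Continuous (fun p : Matrix (Ix n) (Ix n) ℝ × (ι → ℂ) => (R.ρ (AdC p.1 X)).mulVec p.2) := by
  have h1 : Continuous (fun Y : Matrix (Ix n) (Ix n) ℂ => R.ρ Y) :=
    LinearMap.continuous_of_finiteDimensional R.ρ
  exact (h1.comp ((an1R_cont_AdC X).comp continuous_fst)).matrix_mulVec continuous_snd

/-- closed (all conditions are equalities of continuous functions of `(g, a)`; `R.ρ` is continuous: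
`LinearMap.continuous_of_finiteDimensional`) and contained in a compact box (`|g p q| ≤ 1`, `|a i| ≤ 1`). -/
theorem an1_rot_compact (R : StarRep Ty.D n ι) (lam : Vec n) :
    IsCompact {p : Matrix (Ix n) (Ix n) ℝ × (ι → ℂ) | RotHW R lam p.1 p.2} := by
  have hbox1 : IsCompact {g : Matrix (Ix n) (Ix n) ℝ | ∀ p q, g p q ∈ Set.Icc (-1 : ℝ) 1} := by
    have h0 : IsCompact (Set.pi Set.univ (fun _ : Ix n => Set.pi Set.univ
        (fun _ : Ix n => Set.Icc (-1 : ℝ) 1))) :=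
      isCompact_univ_pi (fun _ : Ix n => isCompact_univ_pi (fun _ : Ix n => isCompact_Icc))
    have h1 : {g : Ix n → Ix n → ℝ | ∀ p q, g p q ∈ Set.Icc (-1 : ℝ) 1} =
        Set.pi Set.univ (fun _ : Ix n => Set.pi Set.univ (fun _ : Ix n => Set.Icc (-1 : ℝ) 1)) := by
      ext g
      simp only [Set.mem_pi, Set.mem_univ, true_imp_iff, Set.mem_ofPred_eq]
    rw [← h1] at h0
    exact h0
  have hbox2 : IsCompact {a : ι → ℂ | ∀ i, a i ∈ Metric.closedBall (0 : ℂ) 1} := by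
    have := isCompact_univ_pi (fun _ : ι => isCompact_closedBall (0 : ℂ) 1)
    convert this using 1
    ext g
    simp [Set.mem_pi]
  refine IsCompact.of_isClosed_subset (hbox1.prod hbox2) ?_ ?_
  · have hset : {p : Matrix (Ix n) (Ix n) ℝ × (ι → ℂ) | RotHW R lam p.1 p.2} =
        {p | p.1 * p.1ᵀ = 1} ∩ {p | p.1.det = 1} ∩ {p | star p.2 ⬝ᵥ p.2 = 1} ∩
        (⋂ x : Vec n, {p | (R.ρ (AdC p.1 (Hc x))).mulVec p.2 = ((dot lam x : ℝ) : ℂ) • p.2}) ∩
        (⋂ β : RootD n, ⋂ _ : β.Pos, {p | (R.ρ (AdC p.1 (rootVec β))).mulVec p.2 = 0}) := by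
      ext p
      simp only [Set.mem_ofPred_eq, Set.mem_inter_iff, Set.mem_iInter]
      constructor
      · intro h
        have h1 := h.so
        rw [Matrix.mem_specialOrthogonalGroup_iff, Matrix.mem_orthogonalGroup_iff] at h1
        exact ⟨⟨⟨⟨h1.1, h1.2⟩, h.unit⟩, h.wt⟩, h.top⟩
      · rintro ⟨⟨⟨⟨h1, h2⟩, h3⟩, h4⟩, h5⟩
        refine ⟨?_, h3, h4, h5⟩
        rw [Matrix.mem_specialOrthogonalGroup_iff, Matrix.mem_orthogonalGroup_iff]
        exact ⟨h1, h2⟩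
    rw [hset]
    refine IsClosed.inter (IsClosed.inter (IsClosed.inter (IsClosed.inter ?_ ?_) ?_) ?_) ?_
    · exact isClosed_eq (continuous_fst.matrix_mul continuous_fst.matrix_transpose) continuous_const
    · exact isClosed_eq continuous_fst.matrix_det continuous_const
    · refine isClosed_eq ?_ continuous_const
      exact (continuous_star.comp continuous_snd).dotProduct continuous_snd
    · refine isClosed_iInter fun x => isClosed_eq (an1R_cont_act R _) ?_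
      fun_prop
    · exact isClosed_iInter fun β => isClosed_iInter fun _ =>
        isClosed_eq (an1R_cont_act R _) continuous_const
  · rintro ⟨g, a⟩ h
    simp only [Set.mem_ofPred_eq] at h
    refine ⟨?_, ?_⟩
    · intro p q
      have h1 := h.so
      rw [Matrix.mem_specialOrthogonalGroup_iff] at h1
      have h2 := entry_norm_bound_of_unitary (𝕜 := ℝ) h1.1 p q
      rw [Real.norm_eq_abs, abs_le] at h2
      exact h2
    · intro i
      have h1 := h.unit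
      rw [an1R_star_dot] at h1
      have h2 : (∑ i, ‖a i‖ ^ 2 : ℝ) = 1 := by exact_mod_cast h1
      have h3 : ‖a i‖ ^ 2 ≤ 1 := by
        rw [← h2]
        exact Finset.single_le_sum (f := fun i => ‖a i‖ ^ 2) (fun j _ => by positivity) (Finset.mem_univ i)
      rw [mem_closedBall_zero_iff]
      nlinarith [norm_nonneg (a i)]

/-! ## L-AN1-R3 -/

/-- `W ↦ ρ(g W gᵀ) a` -/
noncomputable def an1_R3_Phi (R : StarRep Ty.D n ι) (g : Matrix (Ix n) (Ix n) ℝ) (a : ι → ℂ) :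
    Matrix (Ix n) (Ix n) ℂ →ₗ[ℂ] (ι → ℂ) where
  toFun W := (R.ρ (AdC g W)).mulVec a
  map_add' := by intro W W'; rw [an1_AdC_add, map_add, add_mulVec]
  map_smul' := by intro c W; rw [an1_AdC_smul, map_smul, smul_mulVec]; rfl

theorem an1_R3_Phi_apply (R : StarRep Ty.D n ι) (g : Matrix (Ix n) (Ix n) ℝ) (a : ι → ℂ)
    (W : Matrix (Ix n) (Ix n) ℂ) : an1_R3_Phi R g a W = (R.ρ (AdC g W)).mulVec a := rfl

theorem an1_R3_Phi_rootSum (R : StarRep Ty.D n ι) (g : Matrix (Ix n) (Ix n) ℝ) (a : ι → ℂ)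
    (F : RootD n → Matrix (Ix n) (Ix n) ℂ) :
    an1_R3_Phi R g a (rootSum F) = rootSum fun β => an1_R3_Phi R g a (F β) :=
  an1_rootSum_map (an1_R3_Phi R g a).toAddMonoidHom F

theorem an1_R3_inG_rootSum (F : RootD n → Matrix (Ix n) (Ix n) ℂ) (h : ∀ β, Ty.D.InG (F β)) :
    Ty.D.InG (rootSum F) := by
  rw [an1_inG_iff]
  have h1 := an1_rootSum_map (Matrix.transposeAddEquiv (Ix n) (Ix n) ℂ).toAddMonoidHom F
  have h2 := an1_rootSum_map (negAddMonoidHom : Matrix (Ix n) (Ix n) ℂ →+ _) F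
  simp only [AddEquiv.toAddMonoidHom_eq_coe, AddMonoidHom.coe_coe, transposeAddEquiv_apply] at h1
  simp only [negAddMonoidHom_apply] at h2
  rw [h1, h2]
  exact congrArg rootSum (funext fun β => (an1_inG_iff _).mp (h β))

theorem an1_R3_conj_rootSum (F : RootD n → Matrix (Ix n) (Ix n) ℂ) :
    (rootSum F)ᴴ = rootSum fun β => (F β)ᴴ := by
  have h1 := an1_rootSum_map (Matrix.conjTransposeAddEquiv (Ix n) (Ix n) ℂ).toAddMonoidHom F
  simpa using h1

open Classical in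
/-- **Iwasawa splitting at a rotated highest weight vector.**
`Y = AdC gᵀ X`; `an1_expand Y`; `X = AdC g Y = ∑ y_i AdC g H_i + (1/2) ∑_β y_β AdC g e_β`.  On `a`: the torus part gives
`∑ y_i lam_i = (1/2) tr (Y * Hc lam) = (1/2) tr (X * AdC g (Hc lam))` (`an1_Hc_sum`, `an1_trace_AdC`), the positive `β` give `0`.
`Z = AdC g ((1/2) ∑_{β not positive} y_β e_β)`; `Zᴴ` is a combination of the `AdC g e_βᴴ = - AdC g e_(-β)`, `-β` positive. -/
theorem an1_rot_split (R : StarRep Ty.D n ι) (lam : Vec n) (g : Matrix (Ix n) (Ix n) ℝ) (a : ι → ℂ)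
    (h : RotHW R lam g a) (X : Matrix (Ix n) (Ix n) ℂ) (hX : Ty.D.InG X) :
    ∃ Z : Matrix (Ix n) (Ix n) ℂ, Ty.D.InG Z ∧
      (R.ρ X).mulVec a = ((1 / 2 : ℂ) * trace (X * AdC g (Hc lam))) • a + (R.ρ Z).mulVec a ∧
      (R.ρ Zᴴ).mulVec a = 0 := by
  set Y := AdC gᵀ X with hY
  have hYG : Ty.D.InG Y := an1_inG_AdC _ hX
  have hXY : X = AdC g Y := (an1_AdC_transpose_cancel h.so X).1.symm
  set Z₀ : Matrix (Ix n) (Ix n) ℂ := (1 / 2 : ℂ) • rootSum fun β =>
    if β.Pos then 0 else ((1 / 2 : ℂ) * trace (Y * (rootVec β)ᴴ)) • rootVec β with hZ₀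
  have hZ₀G : Ty.D.InG Z₀ := by
    apply an1_inG_smul
    apply an1_R3_inG_rootSum
    intro β
    by_cases hβ : β.Pos
    · rw [if_pos hβ, an1_inG_iff]; simp
    · rw [if_neg hβ]; exact an1_inG_smul _ (isRootVec_rootVec β).1
  refine ⟨AdC g Z₀, an1_inG_AdC _ hZ₀G, ?_, ?_⟩
  · have e1 : (R.ρ X).mulVec a = an1_R3_Phi R g a Y := by rw [an1_R3_Phi_apply, ← hXY]
    rw [e1, ← an1_R3_Phi_apply R g a Z₀]
    conv_lhs => rw [an1_expand Y hYG]
    rw [map_add, map_sum, map_smul, hZ₀, map_smul, an1_R3_Phi_rootSum, an1_R3_Phi_rootSum]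
    refine congrArg₂ HAdd.hAdd ?_ ?_
    · have e2 : trace (X * AdC g (Hc lam)) = trace (Y * Hc lam) := ((an1_trace_AdC h.so X _).1).symm
      rw [e2, an1_Hc_sum lam, Finset.mul_sum, trace_sum, Finset.mul_sum, Finset.sum_smul]
      refine Finset.sum_congr rfl fun i _ => ?_
      rw [map_smul, an1_R3_Phi_apply, h.wt, smul_smul, mul_smul_comm, trace_smul, smul_eq_mul]
      congr 1
      have : dot lam (Pi.single i 1) = lam i := by
        simp [dot, Pi.single_apply]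
      rw [this]
      ring
    · refine congrArg (fun w => (1 / 2 : ℂ) • w) ?_
      refine congrArg rootSum (funext fun β => ?_)
      by_cases hβ : β.Pos
      · rw [if_pos hβ, map_zero, map_smul, an1_R3_Phi_apply, h.top β hβ, smul_zero]
      · rw [if_neg hβ]
  · rw [an1_AdC_conjTranspose, ← an1_R3_Phi_apply R g a Z₀ᴴ, hZ₀, conjTranspose_smul, map_smul,
      an1_R3_conj_rootSum, an1_R3_Phi_rootSum]
    have : (fun β : RootD n => an1_R3_Phi R g a
        (if β.Pos then 0 else ((1 / 2 : ℂ) * trace (Y * (rootVec β)ᴴ)) • rootVec β)ᴴ) = fun _ => 0 := by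
      funext β
      by_cases hβ : β.Pos
      · rw [if_pos hβ, conjTranspose_zero, map_zero]
      · rw [if_neg hβ, conjTranspose_smul, map_smul, rootVec_conjTranspose, map_neg, an1_R3_Phi_apply,
          h.top β.neg ((an1_pos_or_neg β).resolve_left hβ), neg_zero, smul_zero]
    rw [this, an1_rootSum_zero, smul_zero]

/-! ## glue -/

theorem an1_rot_decomp (R : StarRep Ty.D n ι) (lam : Vec n) (g : Matrix (Ix n) (Ix n) ℝ) (a : ι → ℂ)
    (h : RotHW R lam g a) (X : Matrix (Ix n) (Ix n) ℂ) (hX : Ty.D.InG X) :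
    ∃ X₀ : Matrix (Ix n) (Ix n) ℝ, X₀ᵀ = -X₀ ∧
      (R.ρ X).mulVec a = (R.ρ (cM X₀)).mulVec a + ((1 / 2 : ℂ) * trace (X * AdC g (Hc lam))) • a := by
  obtain ⟨Z, hZ, h1, h2⟩ := an1_rot_split R lam g a h X hX
  have hZ' : Ty.D.InG (Z + (-1 : ℂ) • Zᴴ) := an1_inG_add hZ (an1_inG_smul _ (an1_inG_conjTranspose hZ))
  have hs : (Z + (-1 : ℂ) • Zᴴ)ᴴ = -(Z + (-1 : ℂ) • Zᴴ) := by
    rw [conjTranspose_add, conjTranspose_smul, conjTranspose_conjTranspose]
    simp
  obtain ⟨X₀, hX₀, e⟩ := an1_real_of_skewHerm _ hZ' hs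
  refine ⟨X₀, hX₀, ?_⟩
  rw [h1, ← e, map_add, map_smul, add_mulVec, smul_mulVec, h2, smul_zero, add_zero, add_comm]

theorem an1_rot_moment (R : StarRep Ty.D n ι) (lam : Vec n) (g : Matrix (Ix n) (Ix n) ℝ) (a : ι → ℂ)
    (h : RotHW R lam g a) (X : Matrix (Ix n) (Ix n) ℂ) (hX : Ty.D.InG X) :
    star a ⬝ᵥ (R.ρ X).mulVec a = (1 / 2 : ℂ) * trace (X * AdC g (Hc lam)) := by
  obtain ⟨Z, hZ, h1, h2⟩ := an1_rot_split R lam g a h X hX
  rw [h1, dotProduct_add, dotProduct_smul, h.unit, an1_adj, ← R.star Z hZ, h2]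
  simp

theorem an1_conj_mulVec (E B E' : Matrix ι ι ℂ) (h : E' * E = 1) (a : ι → ℂ) :
    (E * B * E').mulVec (E.mulVec a) = E.mulVec (B.mulVec a) := by
  rw [mulVec_mulVec, mul_assoc, h, mul_one, ← mulVec_mulVec]

theorem an1_rot_exp (R : StarRep Ty.D n ι) (lam : Vec n) (g : Matrix (Ix n) (Ix n) ℝ) (a : ι → ℂ)
    (h : RotHW R lam g a) (X : Matrix (Ix n) (Ix n) ℝ) (hX : Xᵀ = -X) :
    RotHW R lam (exp X * g) ((exp (R.ρ (cM X))).mulVec a) where
  so := mul_mem (an1_exp_mem_so X hX) h.so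
  unit := by rw [an1_exp_inner _ (an1_rho_skew R X hX)]; exact h.unit
  wt := by
    intro x
    rw [an1_AdC_mul, an1_exp_conj_rep R X hX _ (an1_inG_AdC g (an1_inG_Hc x)),
      an1_conj_mulVec _ _ _ (an1_exp_neg_mul _).1, h.wt x, mulVec_smul]
  top := by
    intro β hβ
    rw [an1_AdC_mul, an1_exp_conj_rep R X hX _ (an1_inG_AdC g (isRootVec_rootVec β).1),
      an1_conj_mulVec _ _ _ (an1_exp_neg_mul _).1, h.top β hβ, mulVec_zero]

theorem an1_rot_compact_snd (R : StarRep Ty.D n ι) (lam : Vec n) :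
    IsCompact {a : ι → ℂ | ∃ g, RotHW R lam g a} := by
  have := (an1_rot_compact R lam).image continuous_snd
  convert this using 1
  ext a
  constructor
  · rintro ⟨g, hg⟩
    exact ⟨(g, a), hg, rfl⟩
  · rintro ⟨⟨g, a'⟩, hg, rfl⟩
    exact ⟨g, hg⟩

/-- the rotated highest weight vectors span the cyclic module -/
theorem an1_cyc_le_span (R : StarRep Ty.D n ι) (v : ι → ℂ) (lam : Vec n) (h : IsHW R v lam) :
    R.cyc v ≤ Submodule.span ℂ {a : ι → ℂ | ∃ g, RotHW R lam g a} := by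
  set W := Submodule.span ℂ {a : ι → ℂ | ∃ g, RotHW R lam g a} with hW
  have key : ∀ X : Matrix (Ix n) (Ix n) ℝ, Xᵀ = -X → ∀ a ∈ W, (R.ρ (cM X)).mulVec a ∈ W := by
    intro X hX
    have : W ≤ W.comap (Matrix.toLin' (R.ρ (cM X))) := by
      rw [hW, Submodule.span_le]
      rintro a ⟨g, hg⟩
      show Matrix.toLin' (R.ρ (cM X)) a ∈ W
      rw [Matrix.toLin'_apply]
      refine an1_deriv_mem W (fun t : ℝ => (exp (t • R.ρ (cM X))).mulVec a) _ ?_
        (an1_hasDerivAt_exp_mulVec _ a)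
      intro t
      apply Submodule.subset_span
      refine ⟨exp (t • X) * g, ?_⟩
      have hX' : (t • X)ᵀ = -(t • X) := by rw [transpose_smul, hX, smul_neg]
      have := an1_rot_exp R lam g a hg (t • X) hX'
      rwa [an1_rho_real_smul] at this
    intro a ha
    have := this ha
    rwa [Submodule.mem_comap, Matrix.toLin'_apply] at this
  apply an1_cyc_le
  · obtain ⟨c, hc, hr⟩ := an1_rot_of_isHW R v lam h
    have h1 : c • v ∈ W := Submodule.subset_span ⟨1, hr⟩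
    have h2 := W.smul_mem c⁻¹ h1
    rwa [smul_smul, inv_mul_cancel₀ hc, one_smul] at h2
  · intro Y hY a ha
    obtain ⟨X₁, X₂, h1, h2, rfl⟩ := an1_re_im Y hY
    rw [map_add, map_smul, add_mulVec, smul_mulVec]
    exact W.add_mem (key X₁ h1 a ha) (W.smul_mem _ (key X₂ h2 a ha))

/-- every `g ∈ SO(2n)` occurs -/
theorem an1_rot_exists (R : StarRep Ty.D n ι) (v : ι → ℂ) (lam : Vec n) (h : IsHW R v lam)
    (g : Matrix (Ix n) (Ix n) ℝ) (hg : g ∈ Matrix.specialOrthogonalGroup (Ix n) ℝ) :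
    ∃ a ∈ R.cyc v, RotHW R lam g a := by
  have hc : IsCompact {g : Matrix (Ix n) (Ix n) ℝ | ∃ a ∈ R.cyc v, RotHW R lam g a} := by
    have hcl : IsClosed {p : Matrix (Ix n) (Ix n) ℝ × (ι → ℂ) | p.2 ∈ R.cyc v} :=
      (Submodule.closed_of_finiteDimensional (R.cyc v)).preimage continuous_snd
    have := ((an1_rot_compact R lam).inter_right hcl).image continuous_fst
    convert this using 1
    ext g
    constructor
    · rintro ⟨a, ha, hr⟩
      exact ⟨(g, a), ⟨hr, ha⟩, rfl⟩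
    · rintro ⟨⟨g', a⟩, ⟨hr, ha⟩, rfl⟩
      exact ⟨a, ha, hr⟩
  refine an1_so_induction _ hc ?_ ?_ ?_ g hg
  · obtain ⟨c, -, hr⟩ := an1_rot_of_isHW R v lam h
    exact ⟨1, c • v, (R.cyc v).smul_mem c (an1_mem_cyc R v), hr⟩
  · rintro g ⟨a, -, hr⟩
    exact hr.so
  · rintro g ⟨a, ha, hr⟩ X hX
    exact ⟨_, an1_exp_mem_submodule _ _ (fun b hb => an1_cyc_inv R v _ (an1_inG_cM X hX) b hb) a ha,
      an1_rot_exp R lam g a hr X hX⟩

end Claimed.Agent.R282
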