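import Claimed.Agent.R282.S2AB.AN1.Exp

/-!
# Row 282, package AN1, block (E), second file: `SO` is generated by exponentials (variational form)

No Givens elimination, no normal form, no spectral theorem, no connectedness:  let `𝒢 ⊆ SO` be compact, non-empty and stable under
`g ↦ exp X * g` (`X` skew).  For `g₀ ∈ SO` maximise `tr (g₀ᵀ g)` on `𝒢`; put `s = g g₀ᵀ ∈ SO`; then `tr (exp X * s) ≤ tr s` for all skew `X`.
* first order (`an1_so_symm`): `tr (X s) = 0` for all skew `X`; `X = sᵀ - s` gives `tr ((s - sᵀ)ᵀ (s - sᵀ)) = 0`, so `s` is symmetric;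
* (`an1_so_improve`) a symmetric `s ∈ SO`, `s ≠ 1`: `P = (1 - s)/2` is a symmetric idempotent `≠ 0`; `u` = a normalised non-zero column of `P`;
  `Q = P - u uᵀ` is a symmetric idempotent; `Q = 0` would give `s = 1 - 2 u uᵀ`, `det s = 1 - 2 uᵀ u = -1` (`Matrix.det_one_sub_mul_comm` or
  `det_one_add_replicateCol_mul_replicateRow`); `u'` = a normalised non-zero column of `Q`: `P u' = u'`, `u ⊥ u'`.
  `J = u' uᵀ - u u'ᵀ`, `Π = u uᵀ + u' u'ᵀ`, `J² = -Π`, `J Π = J`; `exp (π J) = 1 - 2 Π` (`an1_exp_plane`), `tr ((1 - 2 Π) s) = tr s + 4`.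

Leaves: L-AN1-SO1 (`an1_exp_plane`, `an1_so_symm`), L-AN1-SO2 (`an1_so_improve`), L-AN1-SO3 (`an1_so_induction`).
-/

set_option autoImplicit false

namespace Claimed.Agent.R282

open Matrix NormedSpace

variable {κ : Type} [Fintype κ] [DecidableEq κ]

section
open scoped Matrix.Norms.Operator

/-- rotation in a plane.  `F t = exp (-(t • J)) * (1 - P + cos t • P + sin t • J)` has derivative `0`. -/
theorem an1_exp_plane (J P : Matrix κ κ ℝ) (hJ : J * J = -P) (hJP : J * P = J) (t : ℝ) :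
    exp (t • J) = 1 - P + Real.cos t • P + Real.sin t • J := by
  set G : ℝ → Matrix κ κ ℝ := fun t => 1 - P + Real.cos t • P + Real.sin t • J with hG
  have dG : ∀ t, HasDerivAt G (-(Real.sin t) • P + Real.cos t • J) t := by
    intro t
    have h1 : HasDerivAt (fun t : ℝ => Real.cos t • P) (-(Real.sin t) • P) t :=
      (Real.hasDerivAt_cos t).smul_const P
    have h2 : HasDerivAt (fun t : ℝ => Real.sin t • J) (Real.cos t • J) t :=
      (Real.hasDerivAt_sin t).smul_const J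
    have h3 : HasDerivAt (fun t : ℝ => 1 - P + Real.cos t • P + Real.sin t • J)
        (0 + -(Real.sin t) • P + Real.cos t • J) t := ((hasDerivAt_const t (1 - P)).add h1).add h2
    rw [zero_add] at h3
    exact h3
  have dE : ∀ t : ℝ, HasDerivAt (fun u : ℝ => exp (u • (-J))) (exp (t • (-J)) * (-J)) t := fun t =>
    hasDerivAt_exp_smul_const (-J) t
  have dF : ∀ t : ℝ, HasDerivAt (fun u : ℝ => exp (u • (-J)) * G u) 0 t := by
    intro t
    have h := (dE t).mul (dG t)
    have e : exp (t • (-J)) * (-J) * G t + exp (t • (-J)) * (-(Real.sin t) • P + Real.cos t • J) = 0 := by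
      rw [mul_assoc, ← mul_add]
      have : -J * G t + (-(Real.sin t) • P + Real.cos t • J) = 0 := by
        simp only [hG, mul_add, mul_sub, mul_one, neg_mul, Matrix.mul_smul, hJP, hJ]
        module
      rw [this, mul_zero]
    rwa [e] at h
  have hconst := is_const_of_deriv_eq_zero (f := fun u : ℝ => exp (u • (-J)) * G u)
    (fun t => (dF t).differentiableAt) (fun t => (dF t).deriv) t 0
  have h0 : exp ((0 : ℝ) • (-J)) * G 0 = 1 := by
    simp [hG]
  have h1 : exp (t • (-J)) * G t = 1 := hconst.trans h0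
  have h2 : exp (t • J) * (exp (t • (-J)) * G t) = G t := by
    rw [← mul_assoc, smul_neg, (an1_exp_neg_mul (t • J)).2, one_mul]
  rw [h1, mul_one] at h2
  exact h2

end

theorem an1_so_symm (s : Matrix κ κ ℝ)
    (h : ∀ X : Matrix κ κ ℝ, Xᵀ = -X → trace (exp X * s) ≤ trace s) : sᵀ = s := by
  -- first order condition
  have h1 : ∀ X : Matrix κ κ ℝ, Xᵀ = -X → trace (X * s) = 0 := by
    intro X hX
    have hmax : IsLocalMax (fun t : ℝ => trace (exp (t • X) * s)) 0 := by
      refine Filter.Eventually.of_forall fun t => ?_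
      have := h (t • X) (by rw [transpose_smul, hX, smul_neg])
      simpa using this
    exact hmax.hasDerivAt_eq_zero (an1_hasDerivAt_trace_exp X s)
  have hX : (sᵀ - s)ᵀ = -(sᵀ - s) := by
    rw [transpose_sub, transpose_transpose, neg_sub]
  have e1 := h1 _ hX
  have e2 : trace ((sᵀ - s) * sᵀ) = 0 := by
    have : trace ((sᵀ - s) * sᵀ) = - trace ((sᵀ - s) * s) := by
      rw [← trace_transpose, transpose_mul, transpose_transpose, hX, trace_mul_comm, neg_mul, trace_neg]
    rw [this, e1, neg_zero]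
  have e3 : trace ((s - sᵀ)ᴴ * (s - sᵀ)) = 0 := by
    rw [conjTranspose_eq_transpose_of_trivial, transpose_sub, transpose_transpose, mul_sub, trace_sub, e1, e2,
      sub_zero]
  rw [trace_conjTranspose_mul_self_eq_zero_iff, sub_eq_zero] at e3
  exact e3.symm

/-- a unit vector in the range of a non-zero symmetric idempotent -/
theorem an1so_unit (P : Matrix κ κ ℝ) (hP2 : P * P = P) (hne : P ≠ 0) :
    ∃ u : κ → ℝ, u ⬝ᵥ u = 1 ∧ P *ᵥ u = u := by
  obtain ⟨i, j, hij⟩ : ∃ i j, P i j ≠ 0 := by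
    by_contra hcon
    push Not at hcon
    exact hne (Matrix.ext hcon)
  set u₀ : κ → ℝ := P *ᵥ Pi.single j 1 with hu₀
  have h1 : P *ᵥ u₀ = u₀ := by rw [hu₀, mulVec_mulVec, hP2]
  have h2 : u₀ i ≠ 0 := by simpa [hu₀] using hij
  have h3 : 0 < u₀ ⬝ᵥ u₀ := by
    have : u₀ ⬝ᵥ u₀ = ∑ k, u₀ k ^ 2 := by simp [dotProduct, sq]
    rw [this]
    exact Finset.sum_pos' (fun k _ => sq_nonneg _) ⟨i, Finset.mem_univ _, by positivity⟩
  refine ⟨(√(u₀ ⬝ᵥ u₀))⁻¹ • u₀, ?_, ?_⟩
  · rw [smul_dotProduct, dotProduct_smul, smul_eq_mul, smul_eq_mul, ← mul_assoc, ← mul_inv,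
      Real.mul_self_sqrt h3.le, inv_mul_cancel₀ h3.ne']
  · rw [mulVec_smul, h1]

theorem an1_so_improve (s : Matrix κ κ ℝ) (hs : s ∈ Matrix.specialOrthogonalGroup κ ℝ) (hsym : sᵀ = s)
    (hne : s ≠ 1) : ∃ X : Matrix κ κ ℝ, Xᵀ = -X ∧ trace s < trace (exp X * s) := by
  obtain ⟨hso, hdet⟩ := mem_specialOrthogonalGroup_iff.1 hs
  have hss : s * s = 1 := by
    have := (mem_orthogonalGroup_iff κ ℝ).1 hso
    rwa [hsym] at this
  set P : Matrix κ κ ℝ := (1 / 2 : ℝ) • (1 - s) with hP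
  have hsP : s = 1 - (2 : ℝ) • P := by
    rw [hP, smul_smul]; norm_num
  have hP2 : P * P = P := by
    rw [hP, smul_mul_smul_comm, sub_mul, mul_sub, mul_sub, hss]
    simp only [one_mul, mul_one]
    module
  have hPt : Pᵀ = P := by
    rw [hP, transpose_smul, transpose_sub, transpose_one, hsym]
  have hPne : P ≠ 0 := by
    intro h0
    apply hne
    rw [hsP, h0, smul_zero, sub_zero]
  obtain ⟨u, huu, hPu⟩ := an1so_unit P hP2 hPne
  have huP : u ᵥ* P = u := by
    rw [← hPt, vecMul_transpose, hPu]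
  set U : Matrix κ κ ℝ := vecMulVec u u with hU
  have hPU : P * U = U := by rw [hU, mul_vecMulVec, hPu]
  have hUP : U * P = U := by rw [hU, vecMulVec_mul, huP]
  have hUU : U * U = U := by rw [hU, vecMulVec_mul_vecMulVec, huu, one_smul]
  set Q : Matrix κ κ ℝ := P - U with hQ
  have hQ2 : Q * Q = Q := by
    rw [hQ, sub_mul, mul_sub, mul_sub, hP2, hPU, hUP, hUU]
    abel
  have hQne : Q ≠ 0 := by
    intro h0
    have hPU' : P = U := sub_eq_zero.1 h0
    have h1 : s = 1 + replicateCol Unit ((-2 : ℝ) • u) * replicateRow Unit u := by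
      rw [← vecMulVec_eq Unit, smul_vecMulVec, ← hU, ← hPU', hsP]
      module
    have h2 : s.det = -1 := by
      rw [h1, det_one_add_replicateCol_mul_replicateRow, dotProduct_smul, huu]
      norm_num
    rw [hdet] at h2
    norm_num at h2
  obtain ⟨u', hu'u', hQu'⟩ := an1so_unit Q hQ2 hQne
  have hPQ : P * Q = Q := by rw [hQ, mul_sub, hP2, hPU]
  have hPu' : P *ᵥ u' = u' := by
    rw [← hQu', mulVec_mulVec, hPQ]
  have hu'P : u' ᵥ* P = u' := by
    rw [← hPt, vecMul_transpose, hPu']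
  have huQ : u ᵥ* Q = 0 := by
    rw [hQ, vecMul_sub, huP, hU, vecMul_vecMulVec, huu, one_smul, sub_self]
  have huu' : u ⬝ᵥ u' = 0 := by
    rw [← hQu', dotProduct_mulVec, huQ, zero_dotProduct]
  have hu'u : u' ⬝ᵥ u = 0 := by rw [dotProduct_comm, huu']
  set J : Matrix κ κ ℝ := vecMulVec u' u - vecMulVec u u' with hJ
  set Pi2 : Matrix κ κ ℝ := vecMulVec u u + vecMulVec u' u' with hPi2
  have hJJ : J * J = -Pi2 := by
    rw [hJ, hPi2]
    simp only [sub_mul, mul_sub, vecMulVec_mul_vecMulVec, huu, hu'u', huu', hu'u, one_smul, zero_smul,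
      vecMulVec_zero]
    abel
  have hJPi : J * Pi2 = J := by
    rw [hJ, hPi2]
    simp only [sub_mul, mul_add, vecMulVec_mul_vecMulVec, huu, hu'u', huu', hu'u, one_smul, zero_smul,
      vecMulVec_zero]
    abel
  have hus : u ᵥ* s = -u := by
    rw [hsP, vecMul_sub, vecMul_one, vecMul_smul, huP]
    module
  have hu's : u' ᵥ* s = -u' := by
    rw [hsP, vecMul_sub, vecMul_one, vecMul_smul, hu'P]
    module
  have hPis : Pi2 * s = -Pi2 := by
    rw [hPi2, add_mul, vecMulVec_mul, vecMulVec_mul, hus, hu's, vecMulVec_neg, vecMulVec_neg, neg_add]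
  have htr : trace Pi2 = 2 := by
    rw [hPi2, trace_add, trace_vecMulVec, trace_vecMulVec, huu, hu'u']
    norm_num
  refine ⟨Real.pi • J, ?_, ?_⟩
  · rw [transpose_smul, hJ, transpose_sub, transpose_vecMulVec, transpose_vecMulVec, ← smul_neg, neg_sub]
  · rw [an1_exp_plane J Pi2 hJJ hJPi, Real.cos_pi, Real.sin_pi]
    have : (1 - Pi2 + (-1 : ℝ) • Pi2 + (0 : ℝ) • J) * s = s + (2 : ℝ) • Pi2 := by
      rw [zero_smul, add_zero, add_mul, sub_mul, one_mul, smul_mul_assoc, hPis]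
      module
    rw [this, trace_add, trace_smul, htr]
    norm_num

theorem an1_so_induction (G : Set (Matrix κ κ ℝ)) (hc : IsCompact G) (hne : G.Nonempty)
    (hsub : ∀ g ∈ G, g ∈ Matrix.specialOrthogonalGroup κ ℝ)
    (hexp : ∀ g ∈ G, ∀ X : Matrix κ κ ℝ, Xᵀ = -X → exp X * g ∈ G)
    (g₀ : Matrix κ κ ℝ) (h₀ : g₀ ∈ Matrix.specialOrthogonalGroup κ ℝ) : g₀ ∈ G := by
  have hcont : Continuous fun g : Matrix κ κ ℝ => trace (g₀ᵀ * g) :=
    (continuous_const.matrix_mul continuous_id).matrix_trace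
  obtain ⟨g, hg, hmax⟩ := hc.exists_isMaxOn hne hcont.continuousOn
  have h₀t : g₀ᵀ ∈ Matrix.specialOrthogonalGroup κ ℝ := by
    obtain ⟨h1, h2⟩ := mem_specialOrthogonalGroup_iff.1 h₀
    refine mem_specialOrthogonalGroup_iff.2 ⟨?_, by rw [det_transpose, h2]⟩
    rw [mem_orthogonalGroup_iff, transpose_transpose]
    exact (mem_orthogonalGroup_iff' κ ℝ).1 h1
  have hs : g * g₀ᵀ ∈ Matrix.specialOrthogonalGroup κ ℝ := mul_mem (hsub g hg) h₀t
  have hle : ∀ X : Matrix κ κ ℝ, Xᵀ = -X → trace (exp X * (g * g₀ᵀ)) ≤ trace (g * g₀ᵀ) := by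
    intro X hX
    have h1 := hmax (hexp g hg X hX)
    simp only at h1
    rw [trace_mul_comm g, ← mul_assoc, trace_mul_comm]
    exact h1
  have hsym := an1_so_symm _ hle
  have h1 : g * g₀ᵀ = 1 := by
    by_contra hne1
    obtain ⟨X, hX, hlt⟩ := an1_so_improve _ hs hsym hne1
    exact absurd (hle X hX) (not_le.2 hlt)
  have h2 : g₀ᵀ * g₀ = 1 := (mem_orthogonalGroup_iff' κ ℝ).1 (mem_specialOrthogonalGroup_iff.1 h₀).1
  have h3 : g = g₀ := by
    calc g = g * (g₀ᵀ * g₀) := by rw [h2, mul_one]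
      _ = g₀ := by rw [← mul_assoc, h1, one_mul]
  rw [← h3]; exact hg

end Claimed.Agent.R282
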